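import Vale.Agent.P210.Cw.Sel
import Vale.Agent.P210.TP.Props

/-!
# The map to a complex
-/

open scoped ENNReal NNReal Topology
open MeasureTheory Set Metric Filter

set_option linter.all false

noncomputable section

namespace Vale.Agent.P210.Cw

/-- barycentric coordinates from functions without high ties -/
theorem exists_bary {X V : Type} [TopologicalSpace X] (k : ℕ) (U : V → X → ℝ)
    (hc : ∀ p, Continuous (U p)) (hfin : LocallyFinite fun p => Function.support (U p))
    (hpos : ∀ x, ∃ p, 0 < U p x)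
    (hties : ∀ x (S : Finset V), S.card = k + 2 → (∀ p ∈ S, 0 < U p x) →
      (∀ p ∈ S, ∀ q ∈ S, U p x = U q x) → False) :
    ∃ lam : V → X → ℝ, TP.Bary X V k lam ∧ ∀ x p, 0 < lam p x → 0 < U p x := by
  classical
  have hthrc : Continuous (thr k U) := continuous_thr hc hfin
  have hsf : ∀ x, {p | thr k U x < U p x}.Finite := fun x => finite_lt hfin x (thr_nonneg x)
  set s : X → Finset V := fun x => (hsf x).toFinset with hs
  have hmem : ∀ x p, p ∈ s x ↔ thr k U x < U p x := by
    intro x p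
    simp [hs]
  have hsne : ∀ x, (s x).Nonempty := fun x => by
    obtain ⟨p, hp⟩ := exists_thr_lt hfin hpos hties x
    exact ⟨p, (hmem x p).2 hp⟩
  have hscard : ∀ x, (s x).card ≤ k + 1 := fun x =>
    thr_card hfin x (s x) fun p hp => (hmem x p).1 hp
  set F : V → X → ℝ := fun p x => max 0 (U p x - thr k U x) with hF
  have hFc : ∀ p, Continuous (F p) := fun p => continuous_const.max ((hc p).sub hthrc)
  have hF0 : ∀ p x, 0 ≤ F p x := fun p x => le_max_left _ _
  have hFpos : ∀ p x, p ∈ s x → 0 < F p x := by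
    intro p x hp
    have := (hmem x p).1 hp
    exact lt_max_of_lt_right (by linarith)
  have hFzero : ∀ p x, p ∉ s x → F p x = 0 := by
    intro p x hp
    rw [hmem, not_lt] at hp
    exact max_eq_left (by linarith)
  set D : X → ℝ := fun x => ∑ᶠ p, F p x with hD
  have hFlf : LocallyFinite fun p => Function.support (F p) := by
    refine hfin.subset fun p x hx => ?_
    rw [Function.mem_support] at hx ⊢
    intro hU
    apply hx
    rw [hF]
    simp only [hU]
    exact max_eq_left (by linarith [thr_nonneg (k := k) (U := U) x])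
  have hDc : Continuous D := continuous_finsum hFc hFlf
  have hDs : ∀ x, D x = ∑ p ∈ s x, F p x := by
    intro x
    apply finsum_eq_sum_of_support_subset
    intro p hp
    rw [Function.mem_support] at hp
    by_contra hcon
    exact hp (hFzero p x hcon)
  have hDpos : ∀ x, 0 < D x := by
    intro x
    rw [hDs x]
    exact Finset.sum_pos (fun p hp => hFpos p x hp) (hsne x)
  refine ⟨fun p x => F p x / D x, ⟨fun v => (hFc v).div hDc fun x => (hDpos x).ne',
    fun v x => div_nonneg (hF0 v x) (hDpos x).le, ?_, ?_, ?_⟩, ?_⟩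
  · refine hFlf.subset fun p x hx => ?_
    rw [Function.mem_support] at hx ⊢
    intro hU
    exact hx (by rw [hU, zero_div])
  · intro x
    have h1 : ∑ᶠ v, F v x / D x = ∑ v ∈ s x, F v x / D x := by
      apply finsum_eq_sum_of_support_subset
      intro p hp
      rw [Function.mem_support] at hp
      by_contra hcon
      exact hp (by rw [hFzero p x hcon, zero_div])
    rw [h1, ← Finset.sum_div, ← hDs x, div_self (hDpos x).ne']
  · intro x
    have h1 : {v | F v x / D x ≠ 0} ⊆ (s x : Set V) := by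
      intro v hv
      by_contra hcon
      exact hv (by rw [hFzero v x hcon, zero_div])
    have h2 := Set.ncard_le_ncard h1 (s x).finite_toSet
    rw [Set.ncard_coe_finset] at h2
    exact h2.trans (hscard x)
  · intro x p hp
    change 0 < F p x / D x at hp
    have hFp : 0 < F p x := by
      rcases (hF0 p x).eq_or_lt with h | h
      · rw [← h, zero_div] at hp
        exact absurd hp (lt_irrefl _)
      · exact h
    have hps : p ∈ s x := by
      by_contra hcon
      rw [hFzero p x hcon] at hFp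
      exact lt_irrefl _ hFp
    rw [hmem] at hps
    exact lt_of_le_of_lt (thr_nonneg x) hps

/-- choice of base points -/
theorem exists_bases' {ι : Type} (lv : ι → ℤ) (k : ℕ) (S : Finset ι) (hS : S.card = k + 2) (j : ℤ)
    (hlev : ∀ p ∈ S, lv p = j ∨ lv p = j - 1) :
    ∃ P B : Fin k → ι, Function.Injective P ∧ (∀ i l, B i ≠ P l) ∧
      (∀ i, P i ∈ S) ∧ (∀ i, B i ∈ S) ∧ ∀ i, lv (P i) = lv (B i) := by
  classical
  obtain ⟨b₁, b₂, hb₁, hb₂, hne, β, hβ⟩ : ∃ b₁ b₂ : ι, b₁ ∈ S ∧ b₂ ∈ S ∧ b₁ ≠ b₂ ∧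
      ∃ β : ι → ι, ∀ p ∈ S, (β p = b₁ ∨ β p = b₂) ∧ lv (β p) = lv p := by
    by_cases hex : ∃ p ∈ S, ∃ q ∈ S, lv p ≠ lv q
    · obtain ⟨p, hp, q, hq, hpq⟩ := hex
      refine ⟨p, q, hp, hq, fun h => hpq (by rw [h]), fun r => if lv r = lv p then p else q, ?_⟩
      intro r hr
      by_cases hrp : lv r = lv p
      · simp [hrp]
      · simp only [hrp, if_false, or_true, true_and]
        rcases hlev p hp with h1 | h1 <;> rcases hlev q hq with h2 | h2 <;>
          rcases hlev r hr with h3 | h3 <;> first | omega | (exfalso; apply hpq; omega)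
    · push Not at hex
      have hcard : 1 < S.card := by omega
      obtain ⟨b₁, hb₁, b₂, hb₂, hne⟩ := Finset.one_lt_card.mp hcard
      exact ⟨b₁, b₂, hb₁, hb₂, hne, fun _ => b₁, fun r hr => ⟨Or.inl rfl, hex _ hb₁ _ hr⟩⟩
  set R := (S.erase b₁).erase b₂ with hR
  have hRcard : R.card = k := by
    rw [hR, Finset.card_erase_of_mem, Finset.card_erase_of_mem hb₁, hS]
    · rfl
    · exact Finset.mem_erase.mpr ⟨hne.symm, hb₂⟩
  let e := R.equivFinOfCardEq hRcard
  have hRmem : ∀ q ∈ R, q ∈ S ∧ q ≠ b₁ ∧ q ≠ b₂ := by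
    intro q hq
    rw [hR, Finset.mem_erase, Finset.mem_erase] at hq
    exact ⟨hq.2.2, hq.2.1, hq.1⟩
  have hPmem : ∀ i, ((e.symm i : R) : ι) ∈ S ∧ ((e.symm i : R) : ι) ≠ b₁ ∧
      ((e.symm i : R) : ι) ≠ b₂ := fun i => hRmem _ (e.symm i).2
  refine ⟨fun i => (e.symm i : R), fun i => β (e.symm i : R), ?_, ?_, ?_, ?_, ?_⟩
  · intro i l h
    exact e.symm.injective (Subtype.ext h)
  · intro i l h
    simp only at h
    rcases (hβ _ (hPmem i).1).1 with h1 | h1
    · exact (hPmem l).2.1 (h.symm.trans h1)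
    · exact (hPmem l).2.2 (h.symm.trans h1)
  · exact fun i => (hPmem i).1
  · intro i
    rcases (hβ _ (hPmem i).1).1 with h1 | h1
    · simp only [h1]; exact hb₁
    · simp only [h1]; exact hb₂
  · intro i
    exact ((hβ _ (hPmem i).1).2).symm

/-- base point, one level -/
theorem exists_bases_one {ι : Type} (lv : ι → ℤ) (k : ℕ) (S : Finset ι) (hS : S.card = k + 1)
    (j : ℤ) (hlev : ∀ p ∈ S, lv p = j) :
    ∃ P B : Fin k → ι, Function.Injective P ∧ (∀ i l, B i ≠ P l) ∧
      (∀ i, P i ∈ S) ∧ (∀ i, B i ∈ S) ∧ ∀ i, lv (P i) = lv (B i) := by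
  classical
  have hne : S.Nonempty := by rw [← Finset.card_pos]; omega
  obtain ⟨b₁, hb₁⟩ := hne
  set R := S.erase b₁ with hR
  have hRcard : R.card = k := by
    rw [hR, Finset.card_erase_of_mem hb₁, hS]
    rfl
  let e := R.equivFinOfCardEq hRcard
  have hRmem : ∀ q ∈ R, q ∈ S ∧ q ≠ b₁ := by
    intro q hq
    rw [hR, Finset.mem_erase] at hq
    exact ⟨hq.2, hq.1⟩
  have hPmem : ∀ i, ((e.symm i : R) : ι) ∈ S ∧ ((e.symm i : R) : ι) ≠ b₁ :=
    fun i => hRmem _ (e.symm i).2
  refine ⟨fun i => (e.symm i : R), fun i => b₁, ?_, ?_, ?_, ?_, ?_⟩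
  · intro i l h
    exact e.symm.injective (Subtype.ext h)
  · intro i l h
    exact (hPmem l).2 h.symm
  · exact fun i => (hPmem i).1
  · exact fun i => hb₁
  · intro i
    rw [hlev _ (hPmem i).1, hlev _ hb₁]

variable {X : Type} [MetricSpace X] {okl : ℤ → Prop}

/-- the multi-scale functions -/
def Uf (V : Vs X okl) (T : X → ℝ) (c : V.ι → ℝ) (p : V.ι) (x : X) : ℝ :=
  max 0 (1 - |T x - ((V.lv p : ℝ) - 1)|) * max 0 (V.hat p x - c p)

theorem Uf_nonneg (V : Vs X okl) (T : X → ℝ) (c : V.ι → ℝ) (p : V.ι) (x : X) :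
    0 ≤ Uf V T c p x := mul_nonneg (le_max_left _ _) (le_max_left _ _)

theorem Uf_pos {V : Vs X okl} {T : X → ℝ} {c : V.ι → ℝ} {p : V.ι} {x : X}
    (h : 0 < Uf V T c p x) : |T x - ((V.lv p : ℝ) - 1)| < 1 ∧ c p < V.hat p x := by
  unfold Uf at h
  constructor
  · by_contra hcon
    rw [max_eq_left (by linarith), zero_mul] at h
    exact lt_irrefl _ h
  · by_contra hcon
    rw [max_eq_left (a := (0 : ℝ)) (b := V.hat p x - c p) (by linarith), mul_zero] at h
    exact lt_irrefl _ h

theorem Uf_eq {V : Vs X okl} {T : X → ℝ} {c : V.ι → ℝ} {p : V.ι} {x : X}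
    (h : 0 < Uf V T c p x) :
    Uf V T c p x = (1 - |T x - ((V.lv p : ℝ) - 1)|) * (V.hat p x - c p) := by
  obtain ⟨h1, h2⟩ := Uf_pos h
  unfold Uf
  rw [max_eq_right (by linarith), max_eq_right (by linarith)]

theorem continuous_Uf (V : Vs X okl) {T : X → ℝ} (hT : Continuous T) (c : V.ι → ℝ) (p : V.ι) :
    Continuous (Uf V T c p) := by
  have h1 := V.continuous_hat p
  unfold Uf
  fun_prop

theorem exists_Uf_pos (V : Vs X okl) (T : X → ℝ) (c : V.ι → ℝ)
    (hc : ∀ p, c p ∈ Icc (0 : ℝ) (1 / 4)) (x : X) (hx : okl (round (T x) + 1)) :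
    ∃ p, 0 < Uf V T c p x := by
  obtain ⟨p, hp, hh⟩ := V.exists_hat hx x
  refine ⟨p, ?_⟩
  have h1 : |T x - ((V.lv p : ℝ) - 1)| ≤ 1 / 2 := by
    have := abs_sub_round (T x)
    rw [hp]
    simpa using this
  have h4 := (hc p).2
  unfold Uf
  apply mul_pos
  · rw [lt_max_iff]; right; linarith
  · rw [lt_max_iff]; right; linarith

section

variable [ProperSpace X] [MeasurableSpace X] [BorelSpace X]
variable {μ : Measure X} {ρ : X → ℝ} {n : ℕ} {b A Cd : ℝ} {ok : ℝ → Prop}

theorem Dat.locallyFinite_Uf (h : Dat μ ρ n b A Cd ok) (V : Vs X okl)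
    (hokl : ∀ j, okl j → ok (1024 * (2 : ℝ) ^ j)) {T : X → ℝ} (hT : Continuous T) (c : V.ι → ℝ)
    (hc : ∀ p, c p ∈ Icc (0 : ℝ) (1 / 4)) :
    LocallyFinite fun p => Function.support (Uf V T c p) := by
  classical
  intro x₀
  let a : ℤ := ⌊T x₀⌋ - 2
  let e : ℤ := ⌈T x₀⌉ + 4
  -- vertices of level `j` near `x₀`
  have hfinj : ∀ j : ℤ, {p : V.ι | V.lv p = j ∧ dist (V.ps p) x₀ ≤ 1 + 2 * (2 : ℝ) ^ j}.Finite := by
    intro j
    have hcomp : IsCompact (closedBall x₀ (1 + 2 * (2 : ℝ) ^ j)) := isCompact_closedBall _ _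
    by_contra hcon
    have hinf : ({p : V.ι | V.lv p = j ∧ dist (V.ps p) x₀ ≤ 1 + 2 * (2 : ℝ) ^ j} :
      Set V.ι).Infinite := hcon
    have hinj : InjOn V.ps {p : V.ι | V.lv p = j ∧ dist (V.ps p) x₀ ≤ 1 + 2 * (2 : ℝ) ^ j} := by
      intro p hp q hq h
      exact V.inj p q (hp.1.trans hq.1.symm) h
    have hinf2 := hinf.image hinj
    obtain ⟨z, hz, hacc⟩ := hinf2.exists_accPt_of_subset_isCompact hcomp (by
      rintro _ ⟨p, hp, rfl⟩
      exact hp.2)
    rw [accPt_iff_frequently] at hacc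
    have h2j : (0 : ℝ) < (2 : ℝ) ^ j := by positivity
    have h1 := hacc.and_eventually (ball_mem_nhds z (ε := (2 : ℝ) ^ j / 2) (by positivity))
    obtain ⟨y, ⟨hyz, p, hp, rfl⟩, hy2⟩ := h1.exists
    have hd : 0 < dist (V.ps p) z := dist_pos.2 hyz
    have h2 := hacc.and_eventually (ball_mem_nhds z (ε := min ((2 : ℝ) ^ j / 2)
      (dist (V.ps p) z)) (lt_min (by positivity) hd))
    obtain ⟨y', ⟨hyz', q, hq, rfl⟩, hy2'⟩ := h2.exists
    have hne : p ≠ q := by
      rintro rfl
      exact absurd (hy2'.trans_le (min_le_right _ _)) (lt_irrefl _)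
    have hs := V.sep p q (hp.1.trans hq.1.symm) hne
    rw [hp.1] at hs
    have := dist_triangle_right (V.ps p) (V.ps q) z
    have h5 := hy2'.trans_le (min_le_left _ _)
    linarith
  refine ⟨{x | |T x - T x₀| < 1} ∩ {x | dist x x₀ < 1}, ?_, ?_⟩
  · apply Filter.inter_mem
    · have : Continuous (fun x : X => |T x - T x₀|) := (hT.sub continuous_const).abs
      apply (isOpen_lt this continuous_const).mem_nhds
      simp
    · have : Continuous (fun x : X => dist x x₀) := by fun_prop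
      apply (isOpen_lt this continuous_const).mem_nhds
      simp
  · apply Set.Finite.subset (Set.Finite.biUnion (Finset.finite_toSet (Finset.Icc a e))
      (fun j _ => hfinj j))
    rintro p ⟨x, hx1, hx2, hx3⟩
    simp only [mem_ofPred_eq] at hx2 hx3
    have hx1' : Uf V T c p x ≠ 0 := hx1
    have hpos : 0 < Uf V T c p x := lt_of_le_of_ne (Uf_nonneg _ _ _ _ _) (Ne.symm hx1')
    obtain ⟨h1, h2⟩ := Uf_pos hpos
    have h3 : 0 < V.hat p x := lt_of_le_of_lt (hc p).1 h2
    have h4 := V.dist_of_hat p h3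
    rw [abs_lt] at h1 hx2
    have ha : a ≤ V.lv p := by
      have : ((a : ℤ) : ℝ) ≤ V.lv p := by
        have := Int.floor_le (T x₀)
        simp only [a]; push_cast; linarith
      exact_mod_cast this
    have hb : V.lv p ≤ e := by
      have : (V.lv p : ℝ) ≤ e := by
        have := Int.le_ceil (T x₀)
        simp only [e]; push_cast; linarith
      exact_mod_cast this
    rw [mem_iUnion₂]
    refine ⟨V.lv p, Finset.mem_coe.2 (Finset.mem_Icc.2 ⟨ha, hb⟩), rfl, ?_⟩
    have := dist_triangle_left (V.ps p) x₀ x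
    linarith

/-- existence of the scale function -/
theorem Dat.exists_scale (h : Dat μ ρ n b A Cd ok) {Lam : ℝ} (hLam : 0 < Lam) (Js : Set ℝ)
    (hJ : ∀ s ∈ Js, ∀ t, s ≤ t → t ∈ Js)
    (hne : ∀ x, ∃ t : ℝ, t ∈ Js ∨ Lam ≤ pot μ ρ x (192 * (2 : ℝ) ^ t))
    (hJb : BddBelow Js) :
    ∃ T : X → ℝ, Continuous T ∧ ∀ x, ∀ t : ℝ,
      (T x < t → t ∈ Js ∨ Lam < pot μ ρ x (192 * (2 : ℝ) ^ t)) ∧
      (t < T x → t ∉ Js ∧ pot μ ρ x (192 * (2 : ℝ) ^ t) < Lam) := by
  set S : X → Set ℝ := fun x => {t | t ∈ Js ∨ Lam ≤ pot μ ρ x (192 * (2 : ℝ) ^ t)} with hS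
  have hR : ∀ R : ℝ, 0 < R → ∃ t : ℝ, 192 * (2 : ℝ) ^ t = R := by
    intro R hR
    refine ⟨Real.logb 2 (R / 192), ?_⟩
    rw [Real.rpow_logb (by norm_num) (by norm_num) (by positivity)]
    field_simp
  have hmono : ∀ t t' : ℝ, t ≤ t' → 192 * (2 : ℝ) ^ t ≤ 192 * (2 : ℝ) ^ t' := by
    intro t t' htt
    gcongr
    norm_num
  have hsmono : ∀ t t' : ℝ, t < t' → 192 * (2 : ℝ) ^ t < 192 * (2 : ℝ) ^ t' := by
    intro t t' htt
    have := Real.rpow_lt_rpow_of_exponent_lt (by norm_num : (1 : ℝ) < 2) htt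
    linarith
  obtain ⟨β, hβ⟩ := hJb
  have hbdd : ∀ x, BddBelow (S x) := by
    intro x
    obtain ⟨R, hR0, hRL⟩ := h.pot_small x hLam
    obtain ⟨t, ht⟩ := hR R hR0
    refine ⟨min β t, fun t' ht' => ?_⟩
    rcases ht' with ht' | ht'
    · exact (min_le_left _ _).trans (hβ ht')
    · by_contra hcon
      push Not at hcon
      have h1 := hcon.trans_le (min_le_right _ _)
      have h2 := ht'.trans (h.pot_mono x (by positivity) (hmono _ _ h1.le))
      rw [ht] at h2
      linarith
  set T : X → ℝ := fun x => sInf (S x) with hT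
  have hprop : ∀ x, ∀ t : ℝ,
      (T x < t → t ∈ Js ∨ Lam < pot μ ρ x (192 * (2 : ℝ) ^ t)) ∧
      (t < T x → t ∉ Js ∧ pot μ ρ x (192 * (2 : ℝ) ^ t) < Lam) := by
    intro x t
    constructor
    · intro ht
      obtain ⟨t', ht', ht't⟩ := exists_lt_of_csInf_lt (hne x) ht
      rcases ht' with ht' | ht'
      · exact Or.inl (hJ t' ht' t ht't.le)
      · exact Or.inr (lt_of_le_of_lt ht' (h.pot_strict x (by positivity) (hsmono _ _ ht't)))
    · intro ht
      have h1 : t ∉ S x := fun hcon => absurd ht (not_lt.2 (csInf_le (hbdd x) hcon))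
      rw [hS] at h1
      simp only [mem_ofPred_eq, not_or, not_le] at h1
      exact h1
  refine ⟨T, ?_, hprop⟩
  rw [continuous_iff_continuousAt]
  intro x
  rw [Metric.continuousAt_iff']
  intro ε hε
  have a1 : ∀ᶠ y in 𝓝 x, T y ≤ T x + ε / 2 := by
    rcases (hprop x (T x + ε / 2)).1 (by linarith) with h1 | h1
    · exact Eventually.of_forall fun y => csInf_le (hbdd y) (Or.inl h1)
    · have e1 := ((h.cont_pot (192 * (2 : ℝ) ^ (T x + ε / 2))).continuousAt (x := x)).eventually
        (lt_mem_nhds h1)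
      filter_upwards [e1] with y hy
      exact csInf_le (hbdd y) (Or.inr hy.le)
  have a2 : ∀ᶠ y in 𝓝 x, T x - ε / 2 ≤ T y := by
    have h2 := (hprop x (T x - ε / 2)).2 (by linarith)
    have e2 := ((h.cont_pot (192 * (2 : ℝ) ^ (T x - ε / 2))).continuousAt (x := x)).eventually
      (gt_mem_nhds h2.2)
    filter_upwards [e2] with y hy
    by_contra hcon
    push Not at hcon
    rcases (hprop y _).1 hcon with h3 | h3
    · exact h2.1 h3
    · linarith
  filter_upwards [a1, a2] with y hy1 hy2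
  rw [Real.dist_eq, abs_lt]
  constructor <;> linarith

/-- the core: a map whose fibres are small or in the same cap -/
theorem Dat.core (h : Dat μ ρ n b A Cd ok) (V : Vs X okl)
    (hokl : ∀ j, okl j → ok (1024 * (2 : ℝ) ^ j)) {k : ℕ} (hk : 0 < k) {η : ℝ} (hη : 0 < η)
    (hη1 : η < 1) (hηb : (n : ℝ) - k * (1 - η) < b) {T : X → ℝ} (hT : Continuous T)
    (hT1 : ∀ x, ∀ j : ℤ, okl j → T x < j → LamC n k b A Cd η < pot μ ρ x (192 * (2 : ℝ) ^ j))
    {Y : Type} (τ : Y → X → ℝ) (hτc : ∀ y, Continuous (τ y))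
    (hτf : LocallyFinite fun y => Function.support (τ y)) (hτ0 : ∀ y x, 0 ≤ τ y x)
    (hτ1 : ∀ y y' x, 0 < τ y x → 0 < τ y' x → y = y')
    (J : ℤ) (hJ : ∀ y x, 0 < τ y x → ∀ i : ℤ, okl i → |T x - ((i : ℝ) - 1)| < 1 → i = J)
    (hcov : ∀ x, okl (round (T x) + 1) ∨ ∃ y, 0 < τ y x) :
    ∃ lam : V.ι ⊕ Y → X → ℝ, TP.Bary X (V.ι ⊕ Y) k lam ∧ ∀ x y, (∀ v, lam v x = lam v y) →
      (∃ p : V.ι, |T x - ((V.lv p : ℝ) - 1)| < 1 ∧ |T y - ((V.lv p : ℝ) - 1)| < 1 ∧
        dist x (V.ps p) < 2 * (2 : ℝ) ^ V.lv p ∧ dist y (V.ps p) < 2 * (2 : ℝ) ^ V.lv p) ∨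
      ∃ z : Y, 0 < τ z x ∧ 0 < τ z y := by
  classical
  obtain ⟨c, hc, hgen⟩ := h.generic V hokl hk hη hη1 hηb
  set U : V.ι ⊕ Y → X → ℝ := fun v => Sum.elim (Uf V T c) τ v with hU
  have hUl : ∀ p, U (Sum.inl p) = Uf V T c p := fun p => rfl
  have hUr : ∀ y, U (Sum.inr y) = τ y := fun y => rfl
  obtain ⟨lam, hB, hlU⟩ := exists_bary k U
    (by
      rintro (p | y)
      · exact continuous_Uf V hT c p
      · exact hτc y)
    (by
      have h1 := h.locallyFinite_Uf V hokl hT c hc
      intro x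
      obtain ⟨N₁, hN₁, hf₁⟩ := h1 x
      obtain ⟨N₂, hN₂, hf₂⟩ := hτf x
      refine ⟨N₁ ∩ N₂, Filter.inter_mem hN₁ hN₂, ?_⟩
      refine ((hf₁.image Sum.inl).union (hf₂.image Sum.inr)).subset ?_
      rintro (p | y) ⟨z, hz1, hz2, hz3⟩
      · exact Or.inl ⟨p, ⟨z, hz1, hz2⟩, rfl⟩
      · exact Or.inr ⟨y, ⟨z, hz1, hz3⟩, rfl⟩)
    (by
      intro x
      rcases hcov x with h1 | ⟨y, hy⟩
      · obtain ⟨p, hp⟩ := exists_Uf_pos V T c hc x h1
        exact ⟨Sum.inl p, hp⟩
      · exact ⟨Sum.inr y, hy⟩)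
    (by
      intro x S hS hpos heq
      -- the general contradiction
      have hcontra : ∀ (j : ℤ) (P B : Fin k → V.ι), okl j → T x < j → Function.Injective P →
          (∀ i l, B i ≠ P l) → (∀ i, Sum.inl (P i) ∈ S) → (∀ i, Sum.inl (B i) ∈ S) →
          (∀ i, V.lv (P i) = V.lv (B i)) →
          (∀ q, (∃ i, q = P i ∨ q = B i) → V.lv q = j ∨ V.lv q = j - 1) → False := by
        intro j P B hj hTj hinj hne hP hB hPB hlev
        have hle := hgen x j P B hj hinj hne hlev
          (by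
            rintro q ⟨i, rfl | rfl⟩
            · exact lt_of_le_of_lt (hc _).1 (Uf_pos (hpos _ (hP i))).2
            · exact lt_of_le_of_lt (hc _).1 (Uf_pos (hpos _ (hB i))).2)
          (by
            intro i
            have e1 := heq _ (hP i) _ (hB i)
            rw [hUl, hUl, Uf_eq (hpos _ (hP i)), Uf_eq (hpos _ (hB i)), ← hPB i] at e1
            have h1 := (Uf_pos (hpos _ (hP i))).1
            exact mul_left_cancel₀ (by linarith) e1)
        exact absurd hle (not_le.2 (hT1 x j hj hTj))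
      by_cases hcap : ∃ y, Sum.inr y ∈ S
      · obtain ⟨y, hy⟩ := hcap
        have hτy : 0 < τ y x := hpos _ hy
        -- all other vertices are ordinary
        set S' : Finset V.ι := (S.erase (Sum.inr y)).preimage Sum.inl
          (Sum.inl_injective.injOn) with hS'
        have himg : S'.image Sum.inl = S.erase (Sum.inr y) := by
          rw [hS', Finset.image_preimage]
          apply Finset.filter_true_of_mem
          intro v hv
          rcases v with p | y'
          · exact ⟨p, rfl⟩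
          · exfalso
            have h2 := (Finset.mem_erase.1 hv)
            exact h2.1 (by rw [hτ1 y' y x (hpos _ h2.2) hτy])
        have hcard : S'.card = k + 1 := by
          rw [← Finset.card_image_of_injective S' (f := (Sum.inl : V.ι → V.ι ⊕ Y))
            Sum.inl_injective, himg, Finset.card_erase_of_mem hy, hS]
          rfl
        have hmem : ∀ p ∈ S', Sum.inl p ∈ S := by
          intro p hp
          have : (Sum.inl p : V.ι ⊕ Y) ∈ S'.image Sum.inl := Finset.mem_image_of_mem _ hp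
          rw [himg] at this
          exact (Finset.mem_erase.1 this).2
        have hlev : ∀ p ∈ S', V.lv p = J := by
          intro p hp
          exact hJ y x hτy (V.lv p) (V.okv p) (Uf_pos (hpos _ (hmem p hp))).1
        obtain ⟨P, B, hinj, hne, hPS, hBS, hPB⟩ := exists_bases_one V.lv k S' hcard J hlev
        have hJok : okl J := by
          rw [← hlev _ (hPS ⟨0, hk⟩)]
          exact V.okv _
        refine hcontra J P B hJok ?_ hinj hne (fun i => hmem _ (hPS i)) (fun i => hmem _ (hBS i))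
          hPB ?_
        · have h1 := (Uf_pos (hpos _ (hmem _ (hPS ⟨0, hk⟩)))).1
          rw [hlev _ (hPS ⟨0, hk⟩), abs_lt] at h1
          linarith
        · rintro q ⟨i, rfl | rfl⟩
          · exact Or.inl (hlev _ (hPS i))
          · exact Or.inl (hlev _ (hBS i))
      · push Not at hcap
        set S' : Finset V.ι := S.preimage Sum.inl (Sum.inl_injective.injOn) with hS'
        have himg : S'.image Sum.inl = S := by
          rw [hS', Finset.image_preimage]
          apply Finset.filter_true_of_mem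
          intro v hv
          rcases v with p | y'
          · exact ⟨p, rfl⟩
          · exact absurd hv (hcap y')
        have hcard : S'.card = k + 2 := by
          rw [← Finset.card_image_of_injective S' (f := (Sum.inl : V.ι → V.ι ⊕ Y))
            Sum.inl_injective, himg, hS]
        have hmem : ∀ p ∈ S', Sum.inl p ∈ S := by
          intro p hp
          rw [← himg]
          exact Finset.mem_image_of_mem _ hp
        have hne' : S'.Nonempty := by rw [← Finset.card_pos]; omega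
        obtain ⟨q, hq, hqmax⟩ := Finset.exists_max_image S' (fun p => V.lv p) hne'
        have hTq := (Uf_pos (hpos _ (hmem q hq))).1
        rw [abs_lt] at hTq
        have hlev : ∀ p ∈ S', V.lv p = V.lv q ∨ V.lv p = V.lv q - 1 := by
          intro p hp
          have hTp := (Uf_pos (hpos _ (hmem p hp))).1
          rw [abs_lt] at hTp
          have h1 : V.lv p ≤ V.lv q := hqmax p hp
          have h2 : (V.lv q : ℝ) - V.lv p < 2 := by linarith
          have h3 : V.lv q - V.lv p < 2 := by exact_mod_cast h2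
          omega
        obtain ⟨P, B, hinj, hne, hPS, hBS, hPB⟩ := exists_bases' V.lv k S' hcard (V.lv q) hlev
        refine hcontra (V.lv q) P B (V.okv q) (by linarith) hinj hne (fun i => hmem _ (hPS i))
          (fun i => hmem _ (hBS i)) hPB ?_
        rintro q' ⟨i, rfl | rfl⟩
        · exact hlev _ (hPS i)
        · exact hlev _ (hBS i))
  refine ⟨lam, hB, fun x y hxy => ?_⟩
  obtain ⟨v, hv⟩ : ∃ v, 0 < lam v x := by
    by_contra hcon
    push Not at hcon
    have h1 := hB.sum x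
    have h2 : ∀ v, lam v x = 0 := fun v => le_antisymm (hcon v) (hB.nonneg v x)
    simp [h2] at h1
  have hUx := hlU x v hv
  have hUy := hlU y v (by rw [← hxy]; exact hv)
  rcases v with p | z
  · left
    refine ⟨p, (Uf_pos hUx).1, (Uf_pos hUy).1, ?_, ?_⟩
    · exact V.dist_of_hat p (lt_of_le_of_lt (hc p).1 (Uf_pos hUx).2)
    · exact V.dist_of_hat p (lt_of_le_of_lt (hc p).1 (Uf_pos hUy).2)
  · exact Or.inr ⟨z, hUx, hUy⟩

end

end Vale.Agent.P210.Cw
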