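import Vale.Agent.P210.R2.H53.Spf

/-!
# The energy inequality for arbitrary conformal factors
-/

open scoped Manifold ContDiff Topology Bundle ENNReal NNReal
open Set Metric Filter Bundle IsManifold MeasureTheory Manifold Asymptotics

set_option maxSynthPendingDepth 3
set_option linter.all false

noncomputable section

namespace Vale.Agent.P210.Cw

open Vale.Agent.P210.R2.H53

variable {E : Type} [NormedAddCommGroup E] [NormedSpace ℝ E] [FiniteDimensional ℝ E]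
  [MeasurableSpace E] [BorelSpace E] {M : Type} [MetricSpace M] [ChartedSpace E M]
  [RiemannianBundle (fun x : M => TangentSpace 𝓘(ℝ, E) x)]
  [MeasurableSpace M] [BorelSpace M] [ProperSpace M] {μ : Measure M}

/-- the constant -/
def C0 (n : ℕ) (β : ℝ) : ℝ := 4 + 4 * (1 + β) ^ 2 / ((n : ℝ) - 2 - 2 * β - β ^ 2)

theorem C0_pos {n : ℕ} {β : ℝ} (hβ : 0 < (n : ℝ) - 2 - 2 * β - β ^ 2) : 0 < C0 n β := by
  unfold C0
  positivity

/-- the pointwise inequality -/
theorem en_pt (hc : Cal E μ) {n : ℕ} {β : ℝ} (hβ0 : 0 < β)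
    (hβ : 0 < (n : ℝ) - 2 - 2 * β - β ^ 2) (a φ ψ : M → ℝ) (p : M)
    (ha : MDifferentiableAt 𝓘(ℝ, E) 𝓘(ℝ, ℝ) a p) (hφ : MDifferentiableAt 𝓘(ℝ, E) 𝓘(ℝ, ℝ) φ p)
    (hψ : MDifferentiableAt 𝓘(ℝ, E) 𝓘(ℝ, ℝ) ψ p) (t : ℝ) :
    0 ≤ (((n : ℝ) - 1) * (n - 2 - 2 * β) * Gam E a a p + 2 * (n - 2 - β) * Gam E a φ p
      + Gam E φ φ p) * t ^ 2
      - 4 * t * (((n : ℝ) - 1) * Gam E a ψ p + Gam E φ ψ p) + C0 n β * Gam E ψ ψ p := by
  set δ : ℝ := (n : ℝ) - 2 - 2 * β - β ^ 2 with hδ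
  have hg : MDifferentiableAt 𝓘(ℝ, E) 𝓘(ℝ, ℝ) (fun q => φ q + ((n : ℝ) - 2 - β) * a q) p :=
    hc.md_add hφ (hc.md_smul _ ha)
  have e1 := hc.quad φ a ((n : ℝ) - 2 - β) p hφ ha
  have e2 := hc.quad ψ (fun q => φ q + ((n : ℝ) - 2 - β) * a q) (-t / 2) p hψ hg
  have e3 := hc.quad ψ a (-(t * δ / (2 * (1 + β)))) p hψ ha
  have e4 : Gam E ψ (fun q => φ q + ((n : ℝ) - 2 - β) * a q) p =
      Gam E ψ φ p + ((n : ℝ) - 2 - β) * Gam E ψ a p := by
    rw [hc.add' _ _ _ _ hφ (hc.md_smul _ ha), hc.smul']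
  have n2 := hc.nonneg (fun q => ψ q + -t / 2 * (fun q => φ q + ((n : ℝ) - 2 - β) * a q) q) p
  have n3 := hc.nonneg (fun q => ψ q + -(t * δ / (2 * (1 + β))) * a q) p
  have s1 := hc.symm φ a p
  have s2 := hc.symm φ ψ p
  have s3 := hc.symm a ψ p
  rw [e2, e4, e1] at n2
  rw [e3] at n3
  rw [s3, s2, ← s1]
  have hb1 : 0 < 1 + β := by linarith
  have n3' : 0 ≤ 4 * (1 + β) ^ 2 / δ * Gam E ψ ψ p - 4 * (1 + β) * t * Gam E ψ a p +
      t ^ 2 * δ * Gam E a a p := by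
    have h1 : 0 ≤ 4 * (1 + β) ^ 2 / δ * (Gam E ψ ψ p + 2 * -(t * δ / (2 * (1 + β))) * Gam E ψ a p +
        (-(t * δ / (2 * (1 + β)))) ^ 2 * Gam E a a p) := mul_nonneg (by positivity) n3
    refine h1.trans (le_of_eq ?_)
    field_simp
    ring
  have h4 : C0 n β = 4 + 4 * (1 + β) ^ 2 / δ := rfl
  rw [h4]
  generalize 4 * (1 + β) ^ 2 / δ = κ at *
  rw [hδ] at n3'
  nlinarith [n2, n3']

/-- the weak inequality -/
theorem en_weak (hC : Stmt.CALC) [IsManifold 𝓘(ℝ, E) ∞ M]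
    [IsContMDiffRiemannianBundle 𝓘(ℝ, E) ∞ E (fun x : M => TangentSpace 𝓘(ℝ, E) x)]
    [IsRiemannianManifold 𝓘(ℝ, E) M] (h1 : 1 ≤ Module.finrank ℝ E) (hc : Cal E μ)
    {n : ℕ} {β : ℝ} (hβ0 : 0 < β)
    (hβ : 0 < (n : ℝ) - 2 - 2 * β - β ^ 2) {a φ S : M → ℝ}
    (ha : ContMDiff 𝓘(ℝ, E) 𝓘(ℝ, ℝ) ∞ a) (hφ : ContMDiff 𝓘(ℝ, E) 𝓘(ℝ, ℝ) ∞ φ)
    (hS : Continuous S)
    (hpt : ∀ p, TwS E n (fun x => Real.exp (2 * a x) / 2) a φ p ≤ S p) {ψ : M → ℝ} (hψ : LC ψ) :
    ∫ p, Real.exp ((β + 2) * a p) * ψ p ^ 2 ∂μ ≤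
      ∫ p, (2 * (Real.exp (β * a p) * ψ p ^ 2 * S p) +
        2 * C0 n β * (Real.exp (β * a p) * Gam E ψ ψ p)) ∂μ := by
  obtain ⟨c1, c2, -⟩ := hC E M h1
  haveI := hc.isFinOn
  have hac : Continuous a := ha.continuous
  have hcut : ∀ K : Set M, IsCompact K → ∃ a' φ' : M → ℝ, TF E a' ∧ TF E φ' ∧
      ∀ p ∈ K, a' =ᶠ[𝓝 p] a ∧ φ' =ᶠ[𝓝 p] φ := by
    intro K hK
    obtain ⟨χ, hχ, -, hχ1, -⟩ := hc.cut K univ hK isOpen_univ (subset_univ _)
    refine ⟨fun q => χ q * a q, fun q => χ q * φ q, ⟨hχ.1.mul ha, hχ.2.mul_right⟩,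
      ⟨hχ.1.mul hφ, hχ.2.mul_right⟩, fun p hp => ?_⟩
    have h2 : ∀ᶠ q in 𝓝 p, χ q = 1 := (mem_nhdsSet_iff_forall.1 hχ1) p hp
    constructor <;> filter_upwards [h2] with q hq <;> rw [hq, one_mul]
  obtain ⟨a', φ', h2, h3, h4⟩ := hcut (tsupport ψ) hψ.2
  set f : M → ℝ := fun q => ((n : ℝ) - 1) * a' q + φ' q with hf
  have hfT : TF E f := ⟨(contMDiff_const.mul h2.1).add h3.1, (h2.2.mul_left).add h3.2⟩
  have hψ2 : LC fun q => ψ q * ψ q := LC.mul_left hψ.ll hψ
  have hell : LocallyLipschitz fun q => Real.exp (β * a' q) := by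
    have k1 : LocallyLipschitz fun t : ℝ => Real.exp (β * t) :=
      (show ContDiff ℝ 1 fun t : ℝ => Real.exp (β * t) by fun_prop).locallyLipschitz
    exact k1.comp (hc.tfll a' h2)
  set W : M → ℝ := fun q => Real.exp (β * a' q) * (ψ q * ψ q) with hW
  have hWL : LC W := LC.mul_left hell hψ2
  have hψll := hψ.ll
  have hdiff : ∀ᵐ p ∂μ, MDifferentiableAt 𝓘(ℝ, E) 𝓘(ℝ, ℝ) ψ p := hc.diff ψ hψll
  have md : ∀ u : M → ℝ, TF E u → ∀ p, MDifferentiableAt 𝓘(ℝ, E) 𝓘(ℝ, ℝ) u p :=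
    fun u hu p => (hu.1 p).mdifferentiableAt (by simp)
  -- integrability
  have i1 : Integrable (Gam E f W) μ := hc.int_gam (hc.tfll f hfT) hWL
  have i4 : Integrable (fun p => W p * Lap E f p) μ :=
    hc.int_cont (hWL.cont.mul (c2 f hfT).1.continuous) hWL.2.mul_right
  have hsq : HasCompactSupport fun p => ψ p ^ 2 :=
    hψ.2.comp_left (g := fun t : ℝ => t ^ 2) (by norm_num)
  have i5 : Integrable (fun p => Real.exp ((β + 2) * a p) * ψ p ^ 2) μ := by
    refine hc.int_cont ?_ hsq.mul_left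
    exact (Real.continuous_exp.comp (continuous_const.mul hac)).mul (hψ.cont.pow 2)
  have i6 : Integrable (fun p => 2 * (Real.exp (β * a p) * ψ p ^ 2 * S p)) μ := by
    refine hc.int_cont ?_ ?_
    · exact continuous_const.mul
        (((Real.continuous_exp.comp (continuous_const.mul hac)).mul (hψ.cont.pow 2)).mul hS)
    · exact (hsq.mul_left.mul_right).mul_left
  have i7 : Integrable (fun p => 2 * C0 n β * (Real.exp (β * a p) * Gam E ψ ψ p)) μ :=
    (hc.int_mul_gam (Real.continuous_exp.comp (continuous_const.mul hac)) hψll hψ).const_mul _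
  -- the weak identity
  have w1 : ∫ p, (4 * (W p * Lap E f p) + 4 * Gam E f W p) ∂μ = 0 := by
    rw [integral_add (i4.const_mul 4) (i1.const_mul 4), integral_const_mul, integral_const_mul,
      hc.ibp f W hfT hWL]
    ring
  have w2 : ∫ p, (2 * (Real.exp (β * a p) * ψ p ^ 2 * S p) +
        2 * C0 n β * (Real.exp (β * a p) * Gam E ψ ψ p)) ∂μ =
      ∫ p, ((2 * (Real.exp (β * a p) * ψ p ^ 2 * S p) +
        2 * C0 n β * (Real.exp (β * a p) * Gam E ψ ψ p)) -
        (4 * (W p * Lap E f p) + 4 * Gam E f W p)) ∂μ := by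
    rw [integral_sub (by exact i6.add i7) (by exact (i4.const_mul 4).add (i1.const_mul 4)), w1,
      sub_zero]
  rw [w2]
  refine integral_mono_ae i5
    ((i6.add i7).sub ((i4.const_mul 4).add (i1.const_mul 4))) ?_
  filter_upwards [hdiff] with p hp
  by_cases hps : p ∈ tsupport ψ
  · obtain ⟨h5, h6⟩ := h4 p hps
    have hap : a' p = a p := h5.self_of_nhds
    have k0 := hpt p
    rw [← TwS_congr n hc (b := fun x => Real.exp (2 * a x) / 2) h5 h6] at k0
    have k1 := en_pt hc hβ0 hβ a' φ' ψ p (md _ h2 p) (md _ h3 p) hp (ψ p)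
    have k2 : ∀ w : M → ℝ, Gam E f w p = ((n : ℝ) - 1) * Gam E a' w p + Gam E φ' w p := by
      intro w
      rw [hf, hc.add _ _ _ _ (hc.md_smul _ (md _ h2 p)) (md _ h3 p), hc.smul]
    have k3 : TwS E n (fun x => Real.exp (2 * a x) / 2) a' φ' p =
      Real.exp (2 * a p) / 2 + 2 * Lap E f p + (n - 1) * (n - 2) * Gam E a' a' p +
      2 * (n - 2) * Gam E a' φ' p + Gam E φ' φ' p := rfl
    have hψψ : MDifferentiableAt 𝓘(ℝ, E) 𝓘(ℝ, ℝ) (fun q => ψ q * ψ q) p := hc.md_mul hp hp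
    have hemd : MDifferentiableAt 𝓘(ℝ, E) 𝓘(ℝ, ℝ) (fun q => Real.exp (β * a' q)) p := by
      have e1 : ContMDiffAt 𝓘(ℝ, E) 𝓘(ℝ, ℝ) ∞ (fun q => Real.exp (β * a' q)) p := by
        have e2 : ContDiff ℝ ∞ fun t : ℝ => Real.exp (β * t) := by fun_prop
        exact (e2.contMDiff.contMDiffAt).comp p (h2.1 p)
      exact e1.mdifferentiableAt (by simp)
    have k4 : Gam E f W p = Real.exp (β * a' p) * (2 * ψ p * Gam E f ψ p) +
        (ψ p * ψ p) * (β * Real.exp (β * a' p) * Gam E f a' p) := by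
      rw [hW, hc.mul' _ _ _ _ hemd hψψ, hc.mul' _ _ _ _ hp hp, hc.symm f (fun q =>
        Real.exp (β * a' q)), hc.comp (fun t => Real.exp (β * t)) a' f p (md _ h2 p)
        (by fun_prop), hc.symm a' f]
      have : deriv (fun t : ℝ => Real.exp (β * t)) (a' p) = β * Real.exp (β * a' p) := by
        have h7 : HasDerivAt (fun t : ℝ => Real.exp (β * t)) (Real.exp (β * a' p) * (β * 1))
            (a' p) := ((hasDerivAt_id (a' p)).const_mul β).exp
        rw [h7.deriv]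
        ring
      rw [this]
      ring
    have k5 : Real.exp ((β + 2) * a p) = Real.exp (β * a p) * Real.exp (2 * a p) := by
      rw [← Real.exp_add]
      congr 1
      ring
    have s1 := hc.symm φ' a' p
    rw [k3] at k0
    rw [k5, k4, k2 ψ, k2 a', hW]
    simp only
    rw [hap, s1]
    have he : 0 < Real.exp (β * a p) := Real.exp_pos _
    set e := Real.exp (β * a p) with hedef
    have k6 : 0 ≤ e * ψ p ^ 2 := by positivity
    have k7 := mul_le_mul_of_nonneg_left k0 k6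
    have k8 := mul_nonneg he.le k1
    nlinarith [k7, k8]
  · have k1 : ψ p = 0 := image_eq_zero_of_notMem_tsupport hps
    have k2 : Gam E ψ ψ p = 0 := hc.gam_zero_of_notMem ψ hps
    have hW0 : p ∉ tsupport W := by
      intro hcon
      apply hps
      have : tsupport W ⊆ tsupport ψ := by
        apply closure_mono
        intro q hq
        rw [Function.mem_support] at hq ⊢
        intro h0
        apply hq
        simp only [hW, h0, mul_zero]
      exact this hcon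
    have k3 : Gam E f W p = 0 := hc.gam_zero_of_notMem f hW0
    have k4 : W p = 0 := by simp only [hW, k1, mul_zero]
    rw [k1, k2, k3, k4]
    simp

/-- Young's inequality -/
theorem young_pt {x y t β : ℝ} (hx : 0 ≤ x) (hy : 0 ≤ y) (ht : 0 < t) (hβ : 0 < β) :
    x ^ β * y ^ 2 ≤ t ^ 2 * x ^ (β + 2) + t ^ (-β) * y ^ (β + 2) := by
  have hxb : x ^ (β + 2) = x ^ β * x ^ 2 := by
    rcases hx.eq_or_lt with h | h
    · rw [← h, Real.zero_rpow (by linarith)]
      simp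
    · rw [Real.rpow_add h, Real.rpow_two]
  have hyb : y ^ (β + 2) = y ^ β * y ^ 2 := by
    rcases hy.eq_or_lt with h | h
    · rw [← h, Real.zero_rpow (by linarith)]
      simp
    · rw [Real.rpow_add h, Real.rpow_two]
  rcases le_or_gt y (t * x) with h | h
  · have h1 : x ^ β * y ^ 2 ≤ t ^ 2 * x ^ (β + 2) := by
      rw [hxb]
      calc x ^ β * y ^ 2 ≤ x ^ β * (t * x) ^ 2 := by gcongr
        _ = _ := by ring
    have h2 : 0 ≤ t ^ (-β) * y ^ (β + 2) := by positivity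
    linarith
  · have h1 : x ^ β * y ^ 2 ≤ t ^ (-β) * y ^ (β + 2) := by
      rw [hyb]
      have h3 : x ≤ t⁻¹ * y := by
        rw [← div_eq_inv_mul, le_div_iff₀ ht]
        linarith
      calc x ^ β * y ^ 2 ≤ (t⁻¹ * y) ^ β * y ^ 2 := by gcongr
        _ = _ := by
          rw [Real.mul_rpow (by positivity) hy, Real.inv_rpow ht.le, ← Real.rpow_neg ht.le]
          ring
    have h2 : 0 ≤ t ^ 2 * x ^ (β + 2) := by positivity
    linarith

/-- the constants of the energy inequality -/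
def C1 (β : ℝ) : ℝ := 4 * (1 / √8) ^ (-β)

/-- the constants of the energy inequality -/
def C2 (n : ℕ) (β : ℝ) : ℝ := 16 * C0 n β * (1 / √(32 * C0 n β)) ^ (-β)

/-- the energy inequality on balls -/
theorem en_ball (hC : Stmt.CALC) [IsManifold 𝓘(ℝ, E) ∞ M]
    [IsContMDiffRiemannianBundle 𝓘(ℝ, E) ∞ E (fun x : M => TangentSpace 𝓘(ℝ, E) x)]
    [IsRiemannianManifold 𝓘(ℝ, E) M] (h1 : 1 ≤ Module.finrank ℝ E) (hc : Cal E μ)
    {n : ℕ} {β : ℝ} (hβ0 : 0 < β) (hβ1 : β ≤ 1)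
    (hβ : 0 < (n : ℝ) - 2 - 2 * β - β ^ 2) {a φ S : M → ℝ}
    (ha : ContMDiff 𝓘(ℝ, E) 𝓘(ℝ, ℝ) ∞ a) (hφ : ContMDiff 𝓘(ℝ, E) 𝓘(ℝ, ℝ) ∞ φ)
    (hS : Continuous S) (hS0 : ∀ p, 0 ≤ S p)
    (hpt : ∀ p, TwS E n (fun x => Real.exp (2 * a x) / 2) a φ p ≤ S p) (x : M) {r : ℝ}
    (hr : 0 < r) :
    ∫ p in ball x r, Real.exp (a p) ^ (β + 2) ∂μ ≤
      C1 β * ∫ p in ball x (2 * r), S p ^ ((β + 2) / 2) ∂μ +
        C2 n β * r ^ (-(β + 2)) * μ.real (ball x (2 * r)) := by
  haveI := hc.isFinOn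
  have hac : Continuous a := ha.continuous
  have hC0 := C0_pos hβ
  obtain ⟨ζ, hζ, hζ01, hζ1, hζ2, hζl⟩ := lc_cutoff x (a := r) (b := 2 * r) (by linarith)
  have hrr : 2 * r - r = r := by ring
  rw [hrr] at hζl
  set ψ : M → ℝ := fun p => ζ p * ζ p with hψdef
  have hψ : LC ψ := LC.mul_left hζ.ll hζ
  have hw := en_weak hC h1 hc hβ0 hβ ha hφ hS hpt hψ
  have hexp : ∀ p, Real.exp ((β + 2) * a p) = Real.exp (a p) ^ (β + 2) := fun p => by
    rw [← Real.exp_mul, mul_comm]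
  have hexp' : ∀ p, Real.exp (β * a p) = Real.exp (a p) ^ β := fun p => by
    rw [← Real.exp_mul, mul_comm]
  have hbf : μ (ball x (2 * r)) ≠ ⊤ :=
    ne_top_of_le_ne_top (isCompact_closedBall x (2 * r)).measure_ne_top
      (measure_mono ball_subset_closedBall)
  set G : M → ℝ := fun p => Real.exp (a p) ^ (β + 2) * ψ p ^ 2 with hG
  have hGc : Continuous G := by
    have : Continuous fun p => Real.exp (a p) ^ (β + 2) :=
      (Real.continuous_exp.comp hac).rpow_const fun p => Or.inl (Real.exp_pos _).ne'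
    exact this.mul (hψ.cont.pow 2)
  have hsq : HasCompactSupport fun p => ψ p ^ 2 :=
    hψ.2.comp_left (g := fun t : ℝ => t ^ 2) (by norm_num)
  have hGi : Integrable G μ := hc.int_cont hGc hsq.mul_left
  have hG0 : ∀ p, 0 ≤ G p := fun p => by simp only [hG]; positivity
  have hSc : Continuous fun p => S p ^ ((β + 2) / 2) :=
    hS.rpow_const fun p => Or.inr (by positivity)
  have hSi : IntegrableOn (fun p => S p ^ ((β + 2) / 2)) (ball x (2 * r)) μ :=
    (hSc.continuousOn.integrableOn_compact (isCompact_closedBall x _)).mono_set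
      ball_subset_closedBall
  set t₁ : ℝ := 1 / √8 with ht₁
  have ht₁0 : 0 < t₁ := by positivity
  have ht₁2 : t₁ ^ 2 = 1 / 8 := by
    rw [ht₁, div_pow, Real.sq_sqrt (by norm_num)]
    norm_num
  set t₂ : ℝ := 1 / √(32 * C0 n β) with ht₂
  have ht₂0 : 0 < t₂ := by positivity
  have ht₂2 : t₂ ^ 2 = 1 / (32 * C0 n β) := by
    rw [ht₂, div_pow, Real.sq_sqrt (by positivity)]
    norm_num
  -- the right hand side
  set H : M → ℝ := (ball x (2 * r)).indicator (fun p => 2 * t₁ ^ (-β) * S p ^ ((β + 2) / 2) +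
    8 * C0 n β * t₂ ^ (-β) * r ^ (-(β + 2))) with hH
  have hHi : Integrable H μ := by
    rw [hH, integrable_indicator_iff measurableSet_ball]
    exact (hSi.const_mul _).add (integrableOn_const hbf)
  have hdiff : ∀ᵐ p ∂μ, MDifferentiableAt 𝓘(ℝ, E) 𝓘(ℝ, ℝ) ζ p := hc.diff ζ hζ.ll
  have key : ∫ p, (2 * (Real.exp (β * a p) * ψ p ^ 2 * S p) +
        2 * C0 n β * (Real.exp (β * a p) * Gam E ψ ψ p)) ∂μ ≤ ∫ p, (1 / 2 * G p + H p) ∂μ := by
    have i6 : Integrable (fun p => 2 * (Real.exp (β * a p) * ψ p ^ 2 * S p)) μ := by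
      refine hc.int_cont ?_ ?_
      · exact continuous_const.mul
          (((Real.continuous_exp.comp (continuous_const.mul hac)).mul (hψ.cont.pow 2)).mul hS)
      · exact (hsq.mul_left.mul_right).mul_left
    have i7 : Integrable (fun p => 2 * C0 n β * (Real.exp (β * a p) * Gam E ψ ψ p)) μ :=
      (hc.int_mul_gam (Real.continuous_exp.comp (continuous_const.mul hac)) hψ.ll hψ).const_mul _
    refine integral_mono_ae (i6.add i7) ((hGi.const_mul _).add hHi) ?_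
    filter_upwards [hdiff] with p hp
    by_cases hpb : p ∈ ball x (2 * r)
    · have hHp : H p = 2 * t₁ ^ (-β) * S p ^ ((β + 2) / 2) +
          8 * C0 n β * t₂ ^ (-β) * r ^ (-(β + 2)) := by
        rw [hH, indicator_of_mem hpb]
      rw [hHp]
      obtain ⟨z0, z1⟩ := hζ01 p
      have hρ : 0 < Real.exp (a p) := Real.exp_pos _
      set ρ := Real.exp (a p) with hρdef
      set z := ζ p with hz
      have hψz : ψ p = z * z := rfl
      -- gradient of the cutoff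
      have g1 : Gam E ζ ζ p ≤ (r⁻¹) ^ 2 := hc.le_of_lip' (by positivity) hζl p
      have g2 : Gam E ψ ψ p = 4 * z ^ 2 * Gam E ζ ζ p := by
        rw [hψdef, hc.mul _ _ _ _ hp hp, hc.mul' _ _ _ _ hp hp]
        ring
      have g3 : Gam E ψ ψ p ≤ 4 * z ^ 2 * (r⁻¹) ^ 2 := by
        rw [g2]
        gcongr
      have y1 : 2 * (ρ ^ β * (z * z) ^ 2 * S p) ≤ 1 / 4 * (ρ ^ (β + 2) * (z * z) ^ 2) +
          2 * t₁ ^ (-β) * S p ^ ((β + 2) / 2) := by
        have k := young_pt (x := ρ) (y := √(S p)) hρ.le (Real.sqrt_nonneg _) ht₁0 hβ0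
        rw [Real.sq_sqrt (hS0 p), ht₁2] at k
        have e1 : √(S p) ^ (β + 2) = S p ^ ((β + 2) / 2) := by
          rw [Real.sqrt_eq_rpow, ← Real.rpow_mul (hS0 p)]
          congr 1
          ring
        rw [e1] at k
        have hz2 : (z * z) ^ 2 ≤ 1 := by
          have : z * z ≤ 1 := by nlinarith
          exact pow_le_one₀ (by positivity) this
        have hSp : 0 ≤ t₁ ^ (-β) * S p ^ ((β + 2) / 2) :=
          mul_nonneg (by positivity) (Real.rpow_nonneg (hS0 p) _)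
        calc 2 * (ρ ^ β * (z * z) ^ 2 * S p) = 2 * (z * z) ^ 2 * (ρ ^ β * S p) := by ring
          _ ≤ 2 * (z * z) ^ 2 * (1 / 8 * ρ ^ (β + 2) + t₁ ^ (-β) * S p ^ ((β + 2) / 2)) := by
              gcongr
          _ = 1 / 4 * (ρ ^ (β + 2) * (z * z) ^ 2) +
              2 * ((z * z) ^ 2 * (t₁ ^ (-β) * S p ^ ((β + 2) / 2))) := by ring
          _ ≤ 1 / 4 * (ρ ^ (β + 2) * (z * z) ^ 2) +
              2 * (1 * (t₁ ^ (-β) * S p ^ ((β + 2) / 2))) := by gcongr
          _ = _ := by ring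
      have y2 : 2 * C0 n β * (ρ ^ β * Gam E ψ ψ p) ≤ 1 / 4 * (ρ ^ (β + 2) * (z * z) ^ 2) +
          8 * C0 n β * t₂ ^ (-β) * r ^ (-(β + 2)) := by
        have k := young_pt (x := z ^ 2 * ρ) (y := r⁻¹) (by positivity) (by positivity) ht₂0 hβ0
        rw [ht₂2] at k
        have e1 : (r⁻¹) ^ (β + 2) = r ^ (-(β + 2)) := by
          rw [Real.inv_rpow hr.le, Real.rpow_neg hr.le]
        rw [e1] at k
        have e2 : ρ ^ β * z ^ 2 ≤ (z ^ 2 * ρ) ^ β := by
          rw [Real.mul_rpow (by positivity) hρ.le, mul_comm]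
          gcongr
          rcases z0.eq_or_lt with h | h
          · rw [← h]
            simp
            exact Real.rpow_nonneg le_rfl _
          · calc z ^ 2 = (z ^ 2) ^ (1 : ℝ) := (Real.rpow_one _).symm
              _ ≤ (z ^ 2) ^ β := Real.rpow_le_rpow_of_exponent_ge (by positivity)
                  (pow_le_one₀ z0 z1) hβ1
        have e3 : (z ^ 2 * ρ) ^ (β + 2) ≤ ρ ^ (β + 2) * (z * z) ^ 2 := by
          rw [Real.mul_rpow (by positivity) hρ.le, mul_comm]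
          gcongr
          rcases z0.eq_or_lt with h | h
          · rw [← h]
            simp
            rw [Real.zero_rpow (by linarith)]
          · calc (z ^ 2) ^ (β + 2) ≤ (z ^ 2) ^ (2 : ℝ) :=
                  Real.rpow_le_rpow_of_exponent_ge (by positivity) (pow_le_one₀ z0 z1)
                    (by linarith)
              _ = (z * z) ^ 2 := by rw [Real.rpow_two]; ring
        calc 2 * C0 n β * (ρ ^ β * Gam E ψ ψ p)
            ≤ 2 * C0 n β * (ρ ^ β * (4 * z ^ 2 * (r⁻¹) ^ 2)) := by gcongr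
          _ = 8 * C0 n β * ((ρ ^ β * z ^ 2) * (r⁻¹) ^ 2) := by ring
          _ ≤ 8 * C0 n β * ((z ^ 2 * ρ) ^ β * (r⁻¹) ^ 2) := by gcongr
          _ ≤ 8 * C0 n β * (1 / (32 * C0 n β) * (z ^ 2 * ρ) ^ (β + 2) +
                t₂ ^ (-β) * r ^ (-(β + 2))) := by gcongr
          _ = 1 / 4 * (z ^ 2 * ρ) ^ (β + 2) + 8 * C0 n β * t₂ ^ (-β) * r ^ (-(β + 2)) := by
              field_simp
              ring
          _ ≤ _ := by gcongr
      rw [hexp', hψz]
      simp only [hG]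
      rw [hψz, ← hρdef]
      linarith
    · have hζp : ζ p = 0 := hζ2 p (by
        rw [mem_ball, not_lt] at hpb
        exact hpb)
      have hHp : H p = 0 := by rw [hH, indicator_of_notMem hpb]
      have hψp : ψ p = 0 := by simp only [hψdef, hζp, mul_zero]
      have g2 : Gam E ψ ψ p = 0 := by
        rw [hψdef, hc.mul _ _ _ _ hp hp, hζp]
        ring
      simp only [hG, hHp, hψp, g2]
      simp
  have hw' : ∫ p, G p ∂μ ≤ ∫ p, (1 / 2 * G p + H p) ∂μ := by
    refine le_trans (le_of_eq ?_) (hw.trans key)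
    apply integral_congr_ae
    filter_upwards with p
    simp only [hG]
    rw [hexp p]
  rw [integral_add (hGi.const_mul _) hHi, integral_const_mul] at hw'
  have hHint : ∫ p, H p ∂μ = 2 * t₁ ^ (-β) * ∫ p in ball x (2 * r), S p ^ ((β + 2) / 2) ∂μ +
      8 * C0 n β * t₂ ^ (-β) * r ^ (-(β + 2)) * μ.real (ball x (2 * r)) := by
    rw [hH, integral_indicator measurableSet_ball,
      integral_add (hSi.const_mul _) (integrableOn_const hbf), integral_const_mul,
      setIntegral_const, smul_eq_mul]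
    ring
  have hlow : ∫ p in ball x r, Real.exp (a p) ^ (β + 2) ∂μ ≤ ∫ p, G p ∂μ := by
    have e1 : ∫ p in ball x r, Real.exp (a p) ^ (β + 2) ∂μ = ∫ p in ball x r, G p ∂μ := by
      apply setIntegral_congr_fun measurableSet_ball
      intro p hp
      rw [mem_ball] at hp
      simp only [hG, hψdef]
      rw [hζ1 p hp.le]
      simp
    rw [e1]
    exact setIntegral_le_integral hGi (Eventually.of_forall hG0)
  rw [hHint] at hw'
  unfold C1 C2
  rw [← ht₁, ← ht₂]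
  linarith

end Vale.Agent.P210.Cw
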