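import Vale.Agent.P210.Bdl.B1

/-!
# Potentials on metric measure spaces
-/

open scoped ENNReal NNReal Topology
open MeasureTheory Set Metric Filter

set_option linter.all false

noncomputable section

namespace Vale.Agent.P210.Cw

variable {X : Type} [MetricSpace X]

/-- the pointwise Lipschitz constant of `u` is at most `ρ` -/
def PL (ρ u : X → ℝ) : Prop := ∀ z, ∀ ε > 0, ∀ᶠ y in 𝓝 z, |u y - u z| ≤ (ρ z + ε) * dist y z

/-- the kernel -/
def kr (x : X) (s : ℝ) (y : X) : ℝ := max 0 (min s (2 * s - dist x y))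

theorem kr_nonneg (x : X) (s : ℝ) (y : X) : 0 ≤ kr x s y := le_max_left _ _

theorem kr_le {x : X} {s : ℝ} (hs : 0 ≤ s) (y : X) : kr x s y ≤ s :=
  max_le hs (min_le_left _ _)

theorem kr_eq {x : X} {s : ℝ} (hs : 0 ≤ s) {y : X} (h : dist x y ≤ s) : kr x s y = s := by
  unfold kr
  rw [min_eq_left (by linarith), max_eq_right hs]

theorem kr_zero {x : X} {s : ℝ} {y : X} (h : 2 * s ≤ dist x y) : kr x s y = 0 := by
  unfold kr
  exact max_eq_left ((min_le_right _ _).trans (by linarith))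

theorem continuous_kr : Continuous fun q : (X × ℝ) × X => kr q.1.1 q.1.2 q.2 := by
  unfold kr
  fun_prop

variable [ProperSpace X] [MeasurableSpace X] [BorelSpace X]

/-- `∫ kr ρ` -/
def num (μ : Measure X) (ρ : X → ℝ) (x : X) (s : ℝ) : ℝ := ∫ y, kr x s y * ρ y ∂μ

theorem continuous_num (μ : Measure X) [IsFiniteMeasureOnCompacts μ] {ρ : X → ℝ}
    (hρ : Continuous ρ) : Continuous fun q : X × ℝ => num μ ρ q.1 q.2 := by
  rw [continuous_iff_continuousAt]
  rintro ⟨x₀, s₀⟩
  set K : Set X := closedBall x₀ (2 * |s₀| + 4) with hK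
  have hKc : IsCompact K := isCompact_closedBall _ _
  have h1 : Continuous fun q : X × ℝ => ∫ y in K, kr q.1 q.2 y * ρ y ∂μ := by
    apply continuous_parametric_integral_of_continuous _ hKc
    exact continuous_kr.mul (hρ.comp continuous_snd)
  refine h1.continuousAt.congr ?_
  have h2 : ∀ᶠ q : X × ℝ in 𝓝 (x₀, s₀), dist q.1 x₀ < 1 ∧ |q.2 - s₀| < 1 := by
    have a1 : ContinuousAt (fun q : X × ℝ => dist q.1 x₀) (x₀, s₀) := by fun_prop
    have a2 : ContinuousAt (fun q : X × ℝ => |q.2 - s₀|) (x₀, s₀) := by fun_prop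
    exact (a1.eventually_lt continuousAt_const (by simp)).and
      (a2.eventually_lt continuousAt_const (by simp))
  filter_upwards [h2] with q hq
  unfold num
  apply setIntegral_eq_integral_of_forall_compl_eq_zero
  intro y hy
  rw [hK, mem_closedBall, not_le] at hy
  have h3 : q.2 ≤ |s₀| + 1 := by
    have := (abs_lt.1 hq.2).2
    have := le_abs_self s₀
    linarith
  rw [kr_zero, zero_mul]
  have h4 := dist_triangle y q.1 x₀
  rw [dist_comm y q.1] at h4
  linarith [hq.1]

/-- metric measure data with constants; `ok` are the admissible scales -/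
structure Dat (μ : Measure X) (ρ : X → ℝ) (n : ℕ) (b A Cd : ℝ) (ok : ℝ → Prop) : Prop where
  fin : ∀ K : Set X, IsCompact K → μ K < ⊤
  pos : ∀ x r, 0 < r → 0 < μ (ball x r)
  geo : ∀ x y : X, ∀ t ∈ Icc (0 : ℝ) 1, ∃ z, dist x z = t * dist x y ∧
    dist z y = (1 - t) * dist x y
  rc : Continuous ρ
  rp : ∀ x, 0 < ρ x
  cd : 1 ≤ Cd
  b1 : 1 < b
  a0 : 0 < A
  okm : ∀ r s, ok r → s ≤ r → ok s
  dbl : ∀ x s t, 0 < s → s ≤ t → ok t →
    μ.real (ball x t) ≤ Cd * (t / s) ^ n * μ.real (ball x s)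
  poi : ∀ u, PL ρ u → ∀ x r, 0 < r → ok r → ∀ S₁ S₂ : Set X, MeasurableSet S₁ →
    MeasurableSet S₂ → S₁ ⊆ ball x r → S₂ ⊆ ball x r →
    |μ.real S₂ * ∫ y in S₁, u y ∂μ - μ.real S₁ * ∫ y in S₂, u y ∂μ| ≤
      Cd * r * μ.real (ball x r) * ∫ y in ball x (3 * r), ρ y ∂μ
  en : ∀ x r, 0 < r → ok r →
    ∫ y in ball x r, ρ y ^ b ∂μ ≤ A * r ^ (-b) * μ.real (ball x r)

variable {μ : Measure X} {ρ : X → ℝ} {n : ℕ} {b A Cd : ℝ} {ok : ℝ → Prop}

theorem Dat.isFin (h : Dat μ ρ n b A Cd ok) : IsFiniteMeasureOnCompacts μ := ⟨fun K hK => h.fin K hK⟩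

theorem Dat.ball_lt (h : Dat μ ρ n b A Cd ok) (x : X) (r : ℝ) : μ (ball x r) < ⊤ :=
  (measure_mono ball_subset_closedBall).trans_lt (h.fin _ (isCompact_closedBall x r))

theorem Dat.real_pos (h : Dat μ ρ n b A Cd ok) (x : X) {r : ℝ} (hr : 0 < r) :
    0 < μ.real (ball x r) :=
  ENNReal.toReal_pos (h.pos x r hr).ne' (h.ball_lt x r).ne

theorem Dat.int_ball (h : Dat μ ρ n b A Cd ok) {f : X → ℝ} (hf : Continuous f) (x : X) (r : ℝ) :
    IntegrableOn f (ball x r) μ := by
  haveI := h.isFin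
  exact (hf.continuousOn.integrableOn_compact (isCompact_closedBall x r)).mono_set
    ball_subset_closedBall

theorem Dat.int_kr (h : Dat μ ρ n b A Cd ok) {f : X → ℝ} (hf : Continuous f) (x : X) (s : ℝ) :
    Integrable (fun y => kr x s y * f y) μ := by
  haveI := h.isFin
  apply Continuous.integrable_of_hasCompactSupport
  · have : Continuous fun y => kr x s y := by unfold kr; fun_prop
    exact this.mul hf
  · apply HasCompactSupport.intro (isCompact_closedBall x (2 * s))
    intro y hy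
    rw [mem_closedBall, not_le, dist_comm] at hy
    rw [kr_zero hy.le, zero_mul]

theorem Dat.num_ge (h : Dat μ ρ n b A Cd ok) {f : X → ℝ} (hf : Continuous f) (hf0 : ∀ y, 0 ≤ f y)
    (x : X) {s r : ℝ} (hs : 0 ≤ s) (hr : r ≤ s) :
    s * ∫ y in ball x r, f y ∂μ ≤ num μ f x s := by
  rw [← integral_const_mul]
  unfold num
  have h1 : ∫ y in ball x r, s * f y ∂μ ≤ ∫ y in ball x r, kr x s y * f y ∂μ := by
    apply le_of_eq
    apply setIntegral_congr_fun measurableSet_ball
    intro y hy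
    rw [mem_ball, dist_comm] at hy
    simp only
    rw [kr_eq hs (hy.le.trans hr)]
  refine h1.trans (setIntegral_le_integral (h.int_kr hf x s) ?_)
  exact Eventually.of_forall fun y => mul_nonneg (kr_nonneg _ _ _) (hf0 y)

theorem Dat.num_le (h : Dat μ ρ n b A Cd ok) {f : X → ℝ} (hf : Continuous f) (hf0 : ∀ y, 0 ≤ f y)
    (x : X) {s : ℝ} (hs : 0 ≤ s) :
    num μ f x s ≤ s * ∫ y in ball x (2 * s), f y ∂μ := by
  rw [← integral_const_mul]
  unfold num
  have h1 : ∫ y in ball x (2 * s), kr x s y * f y ∂μ = ∫ y, kr x s y * f y ∂μ := by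
    apply setIntegral_eq_integral_of_forall_compl_eq_zero
    intro y hy
    rw [mem_ball, not_lt, dist_comm] at hy
    rw [kr_zero hy, zero_mul]
  rw [← h1]
  apply setIntegral_mono_on (h.int_kr hf x s).integrableOn ((h.int_ball hf _ _).const_mul s)
    measurableSet_ball
  intro y _
  exact mul_le_mul_of_nonneg_right (kr_le hs y) (hf0 y)

/-- the average of `ρ` at scale `s` -/
def av (μ : Measure X) (ρ : X → ℝ) (x : X) (s : ℝ) : ℝ := num μ ρ x s / num μ (fun _ => 1) x s

theorem Dat.den_ge (h : Dat μ ρ n b A Cd ok) (x : X) {s : ℝ} (hs : 0 ≤ s) :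
    s * μ.real (ball x s) ≤ num μ (fun _ => 1) x s := by
  have := h.num_ge (f := fun _ => 1) continuous_const (fun _ => zero_le_one) x hs le_rfl
  simpa using this

theorem Dat.den_le (h : Dat μ ρ n b A Cd ok) (x : X) {s : ℝ} (hs : 0 ≤ s) :
    num μ (fun _ => 1) x s ≤ s * μ.real (ball x (2 * s)) := by
  have := h.num_le (f := fun _ => 1) continuous_const (fun _ => zero_le_one) x hs
  simpa using this

theorem Dat.den_pos (h : Dat μ ρ n b A Cd ok) (x : X) {s : ℝ} (hs : 0 < s) :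
    0 < num μ (fun _ => 1) x s :=
  lt_of_lt_of_le (mul_pos hs (h.real_pos x hs)) (h.den_ge x hs.le)

theorem Dat.int_pos (h : Dat μ ρ n b A Cd ok) (x : X) {r : ℝ} (hr : 0 < r) :
    0 < ∫ y in ball x r, ρ y ∂μ := by
  rw [setIntegral_pos_iff_support_of_nonneg_ae (Eventually.of_forall fun y => (h.rp y).le)
    (h.int_ball h.rc x r)]
  have : Function.support ρ ∩ ball x r = ball x r := by
    rw [inter_eq_right]
    intro y _
    exact (h.rp y).ne'
  rw [this]
  exact h.pos x r hr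

theorem Dat.av_pos (h : Dat μ ρ n b A Cd ok) (x : X) {s : ℝ} (hs : 0 < s) : 0 < av μ ρ x s :=
  div_pos (lt_of_lt_of_le (mul_pos hs (h.int_pos x hs))
    (h.num_ge h.rc (fun y => (h.rp y).le) x hs.le le_rfl)) (h.den_pos x hs)

theorem Dat.cont_av (h : Dat μ ρ n b A Cd ok) (x : X) {s : ℝ} (hs : 0 < s) :
    ContinuousAt (fun q : X × ℝ => av μ ρ q.1 q.2) (x, s) := by
  haveI := h.isFin
  unfold av
  exact ((continuous_num μ h.rc).continuousAt).div ((continuous_num μ continuous_const).continuousAt)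
    (h.den_pos x hs).ne'

theorem Dat.av_le_const (h : Dat μ ρ n b A Cd ok) {x : X} {s B : ℝ} (hs : 0 < s)
    (hB : ∀ y, dist x y ≤ 2 * s → ρ y ≤ B) : av μ ρ x s ≤ B := by
  unfold av
  rw [div_le_iff₀ (h.den_pos x hs)]
  unfold num
  rw [← integral_const_mul]
  apply integral_mono (h.int_kr h.rc x s) ((h.int_kr continuous_const x s).const_mul B)
  intro y
  simp only
  by_cases hy : dist x y ≤ 2 * s
  · have := mul_le_mul_of_nonneg_left (hB y hy) (kr_nonneg x s y)
    linarith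
  · rw [kr_zero (by linarith)]
    simp

theorem Dat.av_ge_const (h : Dat μ ρ n b A Cd ok) {x : X} {s B : ℝ} (hs : 0 < s)
    (hB : ∀ y, dist x y < 2 * s → B ≤ ρ y) : B ≤ av μ ρ x s := by
  unfold av
  rw [le_div_iff₀ (h.den_pos x hs)]
  unfold num
  rw [← integral_const_mul]
  apply integral_mono ((h.int_kr continuous_const x s).const_mul B) (h.int_kr h.rc x s)
  intro y
  simp only
  by_cases hy : dist x y < 2 * s
  · have := mul_le_mul_of_nonneg_left (hB y hy) (kr_nonneg x s y)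
    linarith
  · rw [kr_zero (by linarith)]
    simp

/-- local bound of `ρ` -/
theorem Dat.exists_bound (h : Dat μ ρ n b A Cd ok) (x : X) (R : ℝ) :
    ∃ B, 0 < B ∧ ∀ y, dist x y ≤ R → ρ y ≤ B := by
  obtain ⟨B, hB⟩ := (isCompact_closedBall x R).bddAbove_image h.rc.continuousOn
  refine ⟨max 1 B, lt_of_lt_of_le one_pos (le_max_left _ _), fun y hy => ?_⟩
  exact (hB ⟨y, by rwa [mem_closedBall, dist_comm], rfl⟩).trans (le_max_right _ _)

/-- the potential -/
def pot (μ : Measure X) (ρ : X → ℝ) (x : X) (R : ℝ) : ℝ := ∫ s in Ioo 0 R, av μ ρ x s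

theorem Dat.int_av (h : Dat μ ρ n b A Cd ok) (x : X) (R : ℝ) :
    IntegrableOn (av μ ρ x) (Ioo 0 R) := by
  obtain ⟨B, hB0, hB⟩ := h.exists_bound x (2 * R)
  have hc : ContinuousOn (av μ ρ x) (Ioo 0 R) := by
    intro s hs
    have h1 := h.cont_av x hs.1
    have h2 : ContinuousAt (fun s : ℝ => ((x, s) : X × ℝ)) s := by fun_prop
    exact (ContinuousAt.comp (f := fun s : ℝ => ((x, s) : X × ℝ)) h1 h2).continuousWithinAt
  refine Integrable.of_bound (hc.aestronglyMeasurable measurableSet_Ioo) B ?_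
  filter_upwards [self_mem_ae_restrict measurableSet_Ioo] with s hs
  rw [Real.norm_of_nonneg (h.av_pos x hs.1).le]
  exact h.av_le_const hs.1 fun y hy => hB y (by linarith [hs.2])

theorem Dat.pot_add (h : Dat μ ρ n b A Cd ok) (x : X) {R R' : ℝ} (hR : 0 < R) (hRR : R ≤ R') :
    pot μ ρ x R' = pot μ ρ x R + ∫ s in Ico R R', av μ ρ x s := by
  unfold pot
  rw [← setIntegral_union _ measurableSet_Ico (h.int_av x R)
    ((h.int_av x R').mono_set fun s hs => ⟨hR.trans_le hs.1, hs.2⟩)]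
  · congr 2
    ext s
    simp only [mem_Ioo, mem_union, mem_Ico]
    constructor
    · intro hs
      by_cases h1 : s < R
      · exact Or.inl ⟨hs.1, h1⟩
      · exact Or.inr ⟨not_lt.1 h1, hs.2⟩
    · rintro (hs | hs)
      · exact ⟨hs.1, hs.2.trans_le hRR⟩
      · exact ⟨hR.trans_le hs.1, hs.2⟩
  · rw [Set.disjoint_left]
    intro s hs hs'
    exact absurd hs.2 (not_lt.2 hs'.1)

theorem Dat.pot_ge (h : Dat μ ρ n b A Cd ok) (x : X) {R R' B : ℝ} (hR : 0 < R) (hRR : R ≤ R')
    (hB : ∀ s, R ≤ s → s < R' → B ≤ av μ ρ x s) :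
    pot μ ρ x R + (R' - R) * B ≤ pot μ ρ x R' := by
  rw [h.pot_add x hR hRR]
  have h1 : ∫ _s in Ico R R', B = (R' - R) * B := by
    rw [setIntegral_const, smul_eq_mul]
    congr 1
    rw [measureReal_def, Real.volume_Ico, ENNReal.toReal_ofReal (by linarith)]
  rw [← h1]
  refine add_le_add le_rfl ?_
  apply setIntegral_mono_on (by simp) ((h.int_av x R').mono_set fun s hs => ⟨hR.trans_le hs.1, hs.2⟩)
    measurableSet_Ico
  intro s hs
  exact hB s hs.1 hs.2

theorem Dat.pot_nonneg (h : Dat μ ρ n b A Cd ok) (x : X) (R : ℝ) : 0 ≤ pot μ ρ x R :=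
  setIntegral_nonneg measurableSet_Ioo fun _ hs => (h.av_pos x hs.1).le

theorem Dat.pot_mono (h : Dat μ ρ n b A Cd ok) (x : X) {R R' : ℝ} (hR : 0 < R) (hRR : R ≤ R') :
    pot μ ρ x R ≤ pot μ ρ x R' := by
  have := h.pot_ge x (B := 0) hR hRR fun s hs _ => (h.av_pos x (hR.trans_le hs)).le
  simpa using this

theorem Dat.pot_strict (h : Dat μ ρ n b A Cd ok) (x : X) {R R' : ℝ} (hR : 0 < R) (hRR : R < R') :
    pot μ ρ x R < pot μ ρ x R' := by
  -- a positive lower bound for the average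
  have hc : ContinuousOn (av μ ρ x) (Icc R R') := by
    intro s hs
    have h1 := h.cont_av x (hR.trans_le hs.1)
    have h2 : ContinuousAt (fun s : ℝ => ((x, s) : X × ℝ)) s := by fun_prop
    exact (ContinuousAt.comp (f := fun s : ℝ => ((x, s) : X × ℝ)) h1 h2).continuousWithinAt
  obtain ⟨s₀, hs₀, hmin⟩ := isCompact_Icc.exists_isMinOn (nonempty_Icc.2 hRR.le) hc
  have h3 := h.av_pos x (hR.trans_le hs₀.1)
  have := h.pot_ge x (B := av μ ρ x s₀) hR hRR.le fun s hs hs' => hmin ⟨hs, hs'.le⟩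
  have h4 : 0 < (R' - R) * av μ ρ x s₀ := mul_pos (by linarith) h3
  linarith

theorem Dat.pot_small (h : Dat μ ρ n b A Cd ok) (x : X) {L : ℝ} (hL : 0 < L) :
    ∃ R, 0 < R ∧ pot μ ρ x R < L := by
  obtain ⟨B, hB0, hB⟩ := h.exists_bound x 2
  refine ⟨min 1 (L / (2 * B)), by positivity, ?_⟩
  set R := min 1 (L / (2 * B)) with hR
  have hR0 : 0 < R := by positivity
  have hR1 : R ≤ 1 := min_le_left _ _
  have h1 : pot μ ρ x R ≤ ∫ _s in Ioo 0 R, B := by
    unfold pot
    apply setIntegral_mono_on (h.int_av x R) (by simp) measurableSet_Ioo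
    intro s hs
    exact h.av_le_const hs.1 fun y hy => hB y (by linarith [hs.2])
  have h2 : ∫ _s in Ioo 0 R, B = R * B := by
    rw [setIntegral_const, smul_eq_mul]
    congr 1
    rw [measureReal_def, Real.volume_Ioo, ENNReal.toReal_ofReal (by linarith), sub_zero]
  have h3 : R * B ≤ L / 2 := by
    calc R * B ≤ L / (2 * B) * B := by gcongr; exact min_le_right _ _
      _ = L / 2 := by field_simp
  linarith

theorem Dat.cont_pot (h : Dat μ ρ n b A Cd ok) (R : ℝ) : Continuous fun x => pot μ ρ x R := by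
  rw [continuous_iff_continuousAt]
  intro x₀
  obtain ⟨B, hB0, hB⟩ := h.exists_bound x₀ (2 * R + 1)
  unfold pot
  apply continuousAt_of_dominated (bound := fun _ => B)
  · filter_upwards with x
    exact (h.int_av x R).aestronglyMeasurable
  · filter_upwards [ball_mem_nhds x₀ one_pos] with x hx
    filter_upwards [self_mem_ae_restrict measurableSet_Ioo] with s hs
    rw [Real.norm_of_nonneg (h.av_pos x hs.1).le]
    apply h.av_le_const hs.1
    intro y hy
    apply hB y
    rw [mem_ball] at hx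
    have := dist_triangle x₀ x y
    rw [dist_comm x₀ x] at this
    linarith [hs.2]
  · exact integrable_const B
  · filter_upwards [self_mem_ae_restrict measurableSet_Ioo] with s hs
    have h1 := h.cont_av x₀ hs.1
    have h2 : ContinuousAt (fun x : X => ((x, s) : X × ℝ)) x₀ := by fun_prop
    exact ContinuousAt.comp (f := fun x : X => ((x, s) : X × ℝ)) h1 h2

end Vale.Agent.P210.Cw
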