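import Vale.Agent.P210.R2.H265.Slc
import Vale.Agent.P210.Cw.Pot

/-!
# Slices of twisted products, local version
-/

open scoped Manifold ContDiff Topology Bundle ENNReal NNReal
open Set Metric Filter Bundle IsManifold MeasureTheory Manifold Asymptotics

set_option maxSynthPendingDepth 3
set_option linter.all false

noncomputable section

namespace Vale.Agent.P210.Cw

open Vale.Agent.P210.R2.H53 Vale.Agent.P210.R2.H265

variable {E : Type} [NormedAddCommGroup E] [NormedSpace ℝ E]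
  {V : Type} [NormedAddCommGroup V] [NormedSpace ℝ V]
  {N : Type} [MetricSpace N] [ChartedSpace E N]
  [RiemannianBundle (fun x : N => TangentSpace 𝓘(ℝ, E) x)]
  {F : Type} [TopologicalSpace F] [ChartedSpace V F]
  {M : Type} [MetricSpace M] [ChartedSpace (E × V) M]
  [RiemannianBundle (fun x : M => TangentSpace 𝓘(ℝ, E × V) x)]

theorem slice_loc [IsManifold 𝓘(ℝ, E) ∞ N] [IsManifold 𝓘(ℝ, V) ∞ F]
    [IsManifold 𝓘(ℝ, E × V) ∞ M] [IsRiemannianManifold 𝓘(ℝ, E) N]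
    [IsRiemannianManifold 𝓘(ℝ, E × V) M] {w : N → ℝ}
    {Φ : Diffeomorph 𝓘(ℝ, E × V) (𝓘(ℝ, E).prod 𝓘(ℝ, V)) M (N × F) ∞}
    (h : IsTwisted w Φ) {Λ : ℝ} (hΛ : 0 ≤ Λ) {x : N} {δ : ℝ}
    (hw : ∀ q, dist x q < δ → w q ≤ Λ ^ 2) (x' : N) (hx' : dist x x' < δ) (y : F) :
    dist (Φ.symm (x, y)) (Φ.symm (x', y)) ≤ Λ * dist x x' := by
  have hkey : ∀ c : ℝ≥0∞, edist x x' < c → c ≤ ENNReal.ofReal δ →
      edist (Φ.symm (x, y)) (Φ.symm (x', y)) ≤ ENNReal.ofReal Λ * c := by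
    intro c hc hcδ
    rw [IsRiemannianManifold.out (I := 𝓘(ℝ, E)) x x'] at hc
    obtain ⟨γ, h0, h1, hγ, hlen, -, -⟩ :=
      exists_lt_locally_constant_of_riemannianEDist_lt hc zero_lt_one
    have hin : ∀ t ∈ Icc (0 : ℝ) 1, dist x (γ t) < δ := by
      intro t ht
      have k1 : riemannianEDist 𝓘(ℝ, E) x (γ t) ≤ pathELength 𝓘(ℝ, E) γ 0 t :=
        riemannianEDist_le_pathELength hγ.contMDiffOn h0 rfl ht.1
      have k2 : pathELength 𝓘(ℝ, E) γ 0 t ≤ pathELength 𝓘(ℝ, E) γ 0 1 :=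
        pathELength_mono le_rfl ht.2
      rw [← IsRiemannianManifold.out (I := 𝓘(ℝ, E)) x (γ t), edist_dist] at k1
      have k3 := (k1.trans k2).trans_lt (hlen.trans_le hcδ)
      exact (ENNReal.ofReal_lt_ofReal_iff_of_nonneg dist_nonneg).1 k3
    set γ' : ℝ → M := fun t => Φ.symm (γ t, y) with hγ'
    have hs : ContMDiff 𝓘(ℝ, ℝ) 𝓘(ℝ, E × V) 1 γ' := by
      have h2 : ContMDiff 𝓘(ℝ, ℝ) (𝓘(ℝ, E).prod 𝓘(ℝ, V)) 1 fun t => (γ t, y) :=
        hγ.prodMk contMDiff_const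
      exact (Φ.symm.contMDiff.of_le (by simp)).comp h2
    have hle : riemannianEDist 𝓘(ℝ, E × V) (Φ.symm (x, y)) (Φ.symm (x', y)) ≤
        pathELength 𝓘(ℝ, E × V) γ' 0 1 :=
      riemannianEDist_le_pathELength hs.contMDiffOn (by rw [hγ']; simp only [h0])
        (by rw [hγ']; simp only [h1]) zero_le_one
    have hlen' : pathELength 𝓘(ℝ, E × V) γ' 0 1 ≤
        ENNReal.ofReal Λ * pathELength 𝓘(ℝ, E) γ 0 1 := by
      rw [pathELength_eq_lintegral_mfderiv_Icc, pathELength_eq_lintegral_mfderiv_Icc,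
        ← lintegral_const_mul' _ _ ENNReal.ofReal_ne_top]
      refine setLIntegral_mono' measurableSet_Icc fun t ht => ?_
      have hp : (Φ (γ' t)).1 = γ t := by rw [hγ']; simp
      have hsd : MDifferentiableAt 𝓘(ℝ, ℝ) 𝓘(ℝ, E × V) γ' t :=
        (hs t).mdifferentiableAt one_ne_zero
      have hΦ1 : MDifferentiableAt 𝓘(ℝ, E × V) 𝓘(ℝ, E) (fun q => (Φ q).1) (γ' t) :=
        ((Φ.contMDiff.fst) _).mdifferentiableAt (by simp)
      have hΦ2 : MDifferentiableAt 𝓘(ℝ, E × V) 𝓘(ℝ, V) (fun q => (Φ q).2) (γ' t) :=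
        ((Φ.contMDiff.snd) _).mdifferentiableAt (by simp)
      have e1 : mfderiv 𝓘(ℝ, E × V) 𝓘(ℝ, V) (fun q => (Φ q).2) (γ' t)
          (mfderiv 𝓘(ℝ, ℝ) 𝓘(ℝ, E × V) γ' t 1) = 0 := by
        have k := mfderiv_comp t hΦ2 hsd
        have k2 : ((fun q => (Φ q).2) ∘ γ') = fun _ => y := by
          funext s
          simp [hγ']
        have k3 : mfderiv 𝓘(ℝ, ℝ) 𝓘(ℝ, V) ((fun q => (Φ q).2) ∘ γ') t = 0 := by
          rw [k2]; exact mfderiv_const
        rw [k3] at k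
        have := congrArg (fun T => T (1 : ℝ)) k
        exact this.symm
      have e2 : (mfderiv 𝓘(ℝ, E × V) 𝓘(ℝ, E) (fun q => (Φ q).1) (γ' t)
          (mfderiv 𝓘(ℝ, ℝ) 𝓘(ℝ, E × V) γ' t 1) : E) = mfderiv 𝓘(ℝ, ℝ) 𝓘(ℝ, E) γ t 1 := by
        have k := mfderiv_comp t hΦ1 hsd
        have k2 : ((fun q => (Φ q).1) ∘ γ') = γ := by
          funext s
          simp [hγ']
        have := congrArg (fun T => T (1 : ℝ)) k
        refine Eq.trans this.symm ?_
        rw [k2]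
        rfl
      have hn := twisted_norm h hp _ _ e1 e2
      have hn2 : ‖mfderiv 𝓘(ℝ, ℝ) 𝓘(ℝ, E × V) γ' t 1‖ ≤
          Λ * ‖mfderiv 𝓘(ℝ, ℝ) 𝓘(ℝ, E) γ t 1‖ := by
        refine (pow_le_pow_iff_left₀ (norm_nonneg _) (mul_nonneg hΛ (norm_nonneg _))
          two_ne_zero).1 ?_
        rw [hn, mul_pow]
        exact mul_le_mul_of_nonneg_right (hw _ (hin t ht)) (sq_nonneg _)
      rw [← ofReal_norm, ← ofReal_norm, ← ENNReal.ofReal_mul hΛ]
      exact ENNReal.ofReal_le_ofReal hn2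
    rw [IsRiemannianManifold.out (I := 𝓘(ℝ, E × V)) (Φ.symm (x, y)) (Φ.symm (x', y))]
    exact hle.trans (hlen'.trans (mul_le_mul_right hlen.le _))
  refine le_of_forall_pos_le_add fun ε hε => ?_
  have h1 : (0 : ℝ) < Λ + 1 := by linarith
  set ε' := min (ε / (Λ + 1)) (δ - dist x x') with hε'
  have hε'0 : 0 < ε' := lt_min (by positivity) (by linarith)
  have h2 : edist x x' < ENNReal.ofReal (dist x x' + ε') := by
    rw [edist_dist]
    exact (ENNReal.ofReal_lt_ofReal_iff (by positivity)).2 (by linarith)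
  have h3 := hkey _ h2 (ENNReal.ofReal_le_ofReal (by
    have := min_le_right (ε / (Λ + 1)) (δ - dist x x')
    linarith))
  rw [← ENNReal.ofReal_mul hΛ, edist_dist] at h3
  have h4 := (ENNReal.ofReal_le_ofReal_iff (by positivity)).1 h3
  refine h4.trans ?_
  have h5 : Λ * ε' ≤ ε := by
    calc Λ * ε' ≤ Λ * (ε / (Λ + 1)) := by gcongr; exact min_le_left _ _
      _ ≤ ε := by
        rw [mul_div_assoc']
        rw [div_le_iff₀ h1]
        nlinarith
  linarith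

/-- distances in slices are functions with small pointwise Lipschitz constants -/
theorem pl_slice [IsManifold 𝓘(ℝ, E) ∞ N] [IsManifold 𝓘(ℝ, V) ∞ F]
    [IsManifold 𝓘(ℝ, E × V) ∞ M] [IsRiemannianManifold 𝓘(ℝ, E) N]
    [IsRiemannianManifold 𝓘(ℝ, E × V) M] {w : N → ℝ}
    {Φ : Diffeomorph 𝓘(ℝ, E × V) (𝓘(ℝ, E).prod 𝓘(ℝ, V)) M (N × F) ∞}
    (h : IsTwisted w Φ) (hwc : Continuous w) (hw0 : ∀ x, 0 < w x) (y : F) (p : M) :
    PL (fun z => √(w z)) (fun z => dist (Φ.symm (z, y)) p) := by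
  intro z ε hε
  simp only
  have h1 : 0 ≤ √(w z) := Real.sqrt_nonneg _
  have h2 : w z < (√(w z) + ε) ^ 2 := by
    have := Real.sq_sqrt (hw0 z).le
    nlinarith
  obtain ⟨δ, hδ, hδ2⟩ := Metric.continuousAt_iff.1 (hwc.continuousAt (x := z))
    ((√(w z) + ε) ^ 2 - w z) (by linarith)
  filter_upwards [ball_mem_nhds z hδ] with x hx
  rw [mem_ball, dist_comm] at hx
  have h3 := slice_loc h (Λ := √(w z) + ε) (by linarith) (x := z) (δ := δ) (by
    intro q hq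
    rw [dist_comm] at hq
    have := hδ2 hq
    rw [Real.dist_eq] at this
    linarith [le_abs_self (w q - w z)]) x hx y
  rw [dist_comm z x] at h3
  refine (abs_dist_sub_le _ _ _).trans ?_
  rwa [dist_comm]

end Vale.Agent.P210.Cw
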