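import Vale.Agent.P210.Cw.Mfd
import Vale.Agent.P210.Cw.Wid
import Vale.Agent.P210.Cw.Slc
import Vale.Agent.P210.Cw.Inf

/-!
# Final assembly
-/

open scoped Manifold ContDiff Topology Bundle ENNReal NNReal
open Set Metric Filter Bundle IsManifold MeasureTheory Manifold Asymptotics

set_option maxSynthPendingDepth 3
set_option linter.all false

noncomputable section

namespace Vale.Agent.P210.Cw

open Vale.Agent.P210.R2 Vale.Agent.P210.R2.H53 Vale.Agent.P210.R2.H999 Vale.Agent.P210.R2.H973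

/-- the exponent -/
def βN (p : ℝ) : ℝ := min (2 * p - 2) (1 / 8)

theorem βN_pos {p : ℝ} (hp : 1 < p) : 0 < βN p := lt_min (by linarith) (by norm_num)

theorem βN_le (p : ℝ) : βN p ≤ 1 / 8 := min_le_right _ _

theorem βN_le' (p : ℝ) : βN p + 2 ≤ 2 * p := by
  have := min_le_left (2 * p - 2) (1 / 8)
  unfold βN
  linarith

theorem δ_pos {n : ℕ} (hn : 3 ≤ n) {p : ℝ} (hp : 1 < p) :
    0 < (n : ℝ) - 2 - 2 * βN p - βN p ^ 2 := by
  have h1 : (3 : ℝ) ≤ n := by exact_mod_cast hn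
  have h2 := βN_le p
  have h3 := βN_pos hp
  nlinarith

/-- the energy constant -/
def AN (n : ℕ) (p L : ℝ) : ℝ :=
  (C1 (βN p) * (max L 0) ^ ((βN p + 2) / (2 * p)) + C2 n (βN p)) * (2 ^ n * Real.exp 4)

theorem C2_pos {n : ℕ} {β : ℝ} (hβ : 0 < (n : ℝ) - 2 - 2 * β - β ^ 2) : 0 < C2 n β := by
  have := C0_pos hβ
  unfold C2
  positivity

theorem C1_pos {β : ℝ} : 0 < C1 β := by
  unfold C1
  positivity

theorem AN_pos {n : ℕ} (hn : 3 ≤ n) {p : ℝ} (hp : 1 < p) (L : ℝ) : 0 < AN n p L := by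
  have h1 := C2_pos (δ_pos hn hp)
  have h2 : 0 < C1 (βN p) := C1_pos
  have h3 : 0 ≤ max L 0 := le_max_right _ _
  unfold AN
  positivity

/-- the exponent of the singular kernels -/
def ηN (n : ℕ) (p : ℝ) : ℝ := βN p / (2 * n)

/-- the constant of the capped region -/
def LamN (n : ℕ) (p L : ℝ) : ℝ := LamC n (n - 2) (βN p + 2) (AN n p L) (CdN n) (ηN n p)

theorem ηN_pos {n : ℕ} (hn : 3 ≤ n) {p : ℝ} (hp : 1 < p) : 0 < ηN n p := by
  have := βN_pos hp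
  have : (0 : ℝ) < n := by positivity
  unfold ηN
  positivity

theorem ηN_lt {n : ℕ} (hn : 3 ≤ n) {p : ℝ} (hp : 1 < p) : ηN n p < 1 := by
  have h1 := βN_le p
  have h3 : (3 : ℝ) ≤ n := by exact_mod_cast hn
  unfold ηN
  rw [div_lt_one (by positivity)]
  linarith

theorem ηN_b {n : ℕ} (hn : 3 ≤ n) {p : ℝ} (hp : 1 < p) :
    (n : ℝ) - ((n - 2 : ℕ) : ℝ) * (1 - ηN n p) < βN p + 2 := by
  have h1 := βN_pos hp
  have h3 : (3 : ℝ) ≤ n := by exact_mod_cast hn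
  have h4 : ((n - 2 : ℕ) : ℝ) = n - 2 := by
    rw [Nat.cast_sub (by omega)]
    norm_num
  rw [h4]
  have h5 : ((n : ℝ) - 2) * ηN n p < βN p := by
    unfold ηN
    rw [mul_div_assoc', div_lt_iff₀ (by positivity)]
    nlinarith
  nlinarith

section Base

variable {E : Type} [NormedAddCommGroup E] [NormedSpace ℝ E] [FiniteDimensional ℝ E]
    [MeasurableSpace E] [BorelSpace E]
    {M : Type} [MetricSpace M] [ChartedSpace E M]
    [RiemannianBundle (fun x : M => TangentSpace 𝓘(ℝ, E) x)]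
    [IsManifold 𝓘(ℝ, E) ∞ M]
    [IsContMDiffRiemannianBundle 𝓘(ℝ, E) ∞ E (fun x : M => TangentSpace 𝓘(ℝ, E) x)]
    [IsRiemannianManifold 𝓘(ℝ, E) M] [MeasurableSpace M] [BorelSpace M] [ProperSpace M]

/-- the energy bound -/
theorem energyN {n : ℕ} (hn : 3 ≤ n) (hfin : Module.finrank ℝ E = n) {μ : Measure M}
    (hvol : IsVol E μ) {p : ℝ} (hp : 1 < p) {L : ℝ} {a φ S : M → ℝ}
    (ha : ContMDiff 𝓘(ℝ, E) 𝓘(ℝ, ℝ) ∞ a) (hφ : ContMDiff 𝓘(ℝ, E) 𝓘(ℝ, ℝ) ∞ φ)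
    (hS : Continuous S) (hS0 : ∀ p, 0 ≤ S p)
    (hpt : ∀ p, TwS E n (fun x => Real.exp (2 * a x) / 2) a φ p ≤ S p) (x : M) {r : ℝ}
    (hr : 0 < r) (hRic : RicGE E M (-(1 / r ^ 2)))
    (hM : ∫ y in ball x (2 * r), S y ^ p ∂μ ≤
      L * (2 * r) ^ (-(2 * p)) * μ.real (ball x (2 * r))) :
    ∫ y in ball x r, Real.exp (a y) ^ (βN p + 2) ∂μ ≤
      AN n p L * r ^ (-(βN p + 2)) * μ.real (ball x r) := by
  have hfr : 1 ≤ Module.finrank ℝ E := by omega
  have hc : Cal E μ := cal_of H934.cala H34.calb H34.cald hfr hvol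
  haveI := hc.isFinOn
  have hβ0 := βN_pos hp
  have hL0 : 0 ≤ max L 0 := le_max_right _ _
  have h1 := en_ball H755.calc_holds hfr hc hβ0 ((βN_le p).trans (by norm_num)) (δ_pos hn hp) ha hφ
    hS hS0 hpt x hr
  have hm : 0 ≤ μ.real (ball x (2 * r)) := measureReal_nonneg
  have hM' : ∫ y in ball x (2 * r), S y ^ p ∂μ ≤
      max L 0 * (2 * r) ^ (-(2 * p)) * μ.real (ball x (2 * r)) := by
    refine hM.trans ?_
    gcongr
    exact le_max_left _ _
  have h2 := morrey hS hS0 (b := βN p + 2) (by linarith) (βN_le' p) hL0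
    (by positivity : (0 : ℝ) < 2 * r) hM'
  have h3 : (2 * r) ^ (-(βN p + 2)) ≤ r ^ (-(βN p + 2)) := by
    apply Real.rpow_le_rpow_of_nonpos hr (by linarith) (by linarith)
  have hbg : μ.real (ball x (2 * r)) ≤ 2 ^ n * Real.exp 4 * μ.real (ball x r) := by
    have h0 := H912.bg' n (by omega) E M hfr hfin μ (1 / r ^ 2) hvol (by positivity) hRic x r
      (2 * r) hr (by linarith)
    rwa [show 2 * r / r = 2 by field_simp, show 1 / r ^ 2 * (2 * r) ^ 2 = 4 by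
      field_simp; norm_num] at h0
  have hC1 : 0 < C1 (βN p) := C1_pos
  have hC2 := C2_pos (δ_pos hn hp)
  set m2 := μ.real (ball x (2 * r)) with hm2
  set m1 := μ.real (ball x r) with hm1
  refine h1.trans ?_
  calc C1 (βN p) * ∫ q in ball x (2 * r), S q ^ ((βN p + 2) / 2) ∂μ +
        C2 n (βN p) * r ^ (-(βN p + 2)) * m2
      ≤ C1 (βN p) * (max L 0 ^ ((βN p + 2) / (2 * p)) * r ^ (-(βN p + 2)) * m2) +
        C2 n (βN p) * r ^ (-(βN p + 2)) * m2 := by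
        gcongr
        refine h2.trans ?_
        gcongr
    _ = (C1 (βN p) * max L 0 ^ ((βN p + 2) / (2 * p)) + C2 n (βN p)) * r ^ (-(βN p + 2)) * m2 := by
        ring
    _ ≤ (C1 (βN p) * max L 0 ^ ((βN p + 2) / (2 * p)) + C2 n (βN p)) * r ^ (-(βN p + 2)) *
        (2 ^ n * Real.exp 4 * m1) := by gcongr
    _ = _ := by unfold AN; ring

end Base

/-- the constant -/
def CB (n : ℕ) (p L : ℝ) (D : ℝ) : ℝ :=
  4 * CdN n ^ 3 * 24 ^ n * 3 ^ n * LamN n p L +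
    128 * (max D 0 + 2) * (CdN n ^ 3 * 3 ^ n * 6 ^ n * AN n p L ^ (1 / (βN p + 2)))

/-- the critical value of the density -/
def ΛN (n : ℕ) (p L : ℝ) : ℝ := (64 / 3 * LamN n p L) ^ 2

theorem ΛN_pos {n : ℕ} (hn : 3 ≤ n) {p : ℝ} (hp : 1 < p) (L : ℝ) : 0 < ΛN n p L := by
  have : 0 < LamN n p L :=
    LamC_pos (by linarith [βN_pos hp]) (AN_pos hn hp L) (one_le_CdN n) (ηN_pos hn hp)
      (ηN_b hn hp)
  unfold ΛN
  positivity

section Tw

variable
    (E : Type) [NormedAddCommGroup E] [NormedSpace ℝ E] [FiniteDimensional ℝ E]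
    [MeasurableSpace E] [BorelSpace E]
    (V : Type) [NormedAddCommGroup V] [NormedSpace ℝ V] [FiniteDimensional ℝ V]
    (N : Type) [MetricSpace N] [ChartedSpace E N]
    [RiemannianBundle (fun x : N => TangentSpace 𝓘(ℝ, E) x)] [IsManifold 𝓘(ℝ, E) ∞ N]
    [IsContMDiffRiemannianBundle 𝓘(ℝ, E) ∞ E (fun x : N => TangentSpace 𝓘(ℝ, E) x)]
    [IsRiemannianManifold 𝓘(ℝ, E) N] [MeasurableSpace N] [BorelSpace N]
    (F : Type) [TopologicalSpace F] [ChartedSpace V F] [IsManifold 𝓘(ℝ, V) ∞ F]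
    (M : Type) [MetricSpace M] [ChartedSpace (E × V) M]
    [RiemannianBundle (fun x : M => TangentSpace 𝓘(ℝ, E × V) x)]
    [IsManifold 𝓘(ℝ, E × V) ∞ M]
    [IsContMDiffRiemannianBundle 𝓘(ℝ, E × V) ∞ (E × V)
      (fun x : M => TangentSpace 𝓘(ℝ, E × V) x)]
    [IsRiemannianManifold 𝓘(ℝ, E × V) M]

/-- from the base to the total space -/
theorem lift (w : N → ℝ)
    (Φ : Diffeomorph 𝓘(ℝ, E × V) (𝓘(ℝ, E).prod 𝓘(ℝ, V)) M (N × F) ∞)
    (hw : ContMDiff 𝓘(ℝ, E) 𝓘(ℝ, ℝ) ∞ w) (hw0 : ∀ x, 0 < w x)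
    (hT : IsTwisted w Φ) {m k : ℕ}
    (hemb : EmbedsLE F k ∨ ∃ g : F → Fin k → UnitAddCircle, Continuous g ∧ Function.Injective g)
    {C : ℝ} (H : ∃ (W : Type) (lam : W → N → ℝ), TP.Bary N W m lam ∧
      ∀ x y, (∀ v, lam v x = lam v y) → ∀ u, PL (fun z => √(w z)) u → |u x - u y| ≤ C) :
    H53.UrysohnWidthLE M (m + k) C := by
  classical
  rcases isEmpty_or_nonempty M with hM | hM
  · exact H912.urysohn_of_isEmpty _ _
  obtain ⟨V₁, lam, hB, hd⟩ := H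
  have hπ : Continuous fun p : M => (Φ p).1 := continuous_fst.comp Φ.continuous
  have hq : Continuous fun p : M => (Φ p).2 := continuous_snd.comp Φ.continuous
  have hB' : TP.Bary M V₁ m fun v p => lam v (Φ p).1 :=
    ⟨fun v => (hB.cont v).comp hπ, fun v x => hB.nonneg v _, hB.fin.preimage_continuous hπ,
      fun x => hB.sum _, fun x => hB.card _⟩
  haveI : LocallyCompactSpace M := Manifold.locallyCompact_of_finiteDimensional 𝓘(ℝ, E × V)
  obtain ⟨W, mu, hmu, hmu'⟩ : ∃ (W : Type) (mu : W → M → ℝ), TP.Bary M W k mu ∧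
      ∀ x y, (∀ v, mu v x = mu v y) → (Φ x).2 = (Φ y).2 := by
    rcases hemb with hemb | ⟨g, hg, hgi⟩
    · exact H912.prodb.2 M F k _ hq hemb
    · obtain ⟨W, mu, hmu, h⟩ := bary_torus H912.prodb k (fun p : M => g (Φ p).2)
        (hg.comp hq)
      exact ⟨W, mu, hmu, fun x y hxy => hgi (h x y hxy)⟩
  obtain ⟨nu, hnu, hnu'⟩ := H912.prodb.1 M V₁ W m k _ mu hB' hmu
  refine H912.urysohn_of_bary ⟨_, nu, hnu, fun x y hxy => ?_⟩
  obtain ⟨h5, h6⟩ := hnu' x y hxy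
  have h7 := hmu' x y h6
  have hpl : PL (fun z => √(w z)) (fun z => dist (Φ.symm (z, (Φ x).2)) y) :=
    pl_slice hT hw.continuous hw0 (Φ x).2 y
  have h8 := hd _ _ h5 _ hpl
  have e1 : Φ.symm ((Φ x).1, (Φ x).2) = x := Φ.symm_apply_apply x
  have e2 : Φ.symm ((Φ y).1, (Φ x).2) = y := by
    rw [h7]
    exact Φ.symm_apply_apply y
  rwa [e1, e2, dist_self, sub_zero, abs_of_nonneg dist_nonneg] at h8

/-- the metric measure space of the base -/
theorem dat0 [CompleteSpace N] {n : ℕ} (hn : 3 ≤ n) {p : ℝ} (hp : 1 < p) {L : ℝ}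
    (μ : Measure N) (w S : N → ℝ)
    (Φ : Diffeomorph 𝓘(ℝ, E × V) (𝓘(ℝ, E).prod 𝓘(ℝ, V)) M (N × F) ∞)
    (hμ : IsVol E μ) (hw : ContMDiff 𝓘(ℝ, E) 𝓘(ℝ, ℝ) ∞ w) (hw0 : ∀ x, 0 < w x)
    (hT : IsTwisted w Φ) (hdE : Module.finrank ℝ E = n) {k : ℕ} (hdV : Module.finrank ℝ V = k)
    {ok : ℝ → Prop} (hokm : ∀ r s, ok r → s ≤ r → ok s)
    (hRic : ∀ r, 0 < r → ok r → RicGE E N (-(1 / r ^ 2)))
    (hS : Continuous S) (hS0 : ∀ x, 0 ≤ S x) (hSc : ScalLEf E N S)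
    (hMor : ∀ x r, 0 < r → ok r → ∫ y in ball x (2 * r), S y ^ p ∂μ ≤
      L * (2 * r) ^ (-(2 * p)) * μ.real (ball x (2 * r)))
    (hScal : ScalGE (E × V) M 1)
    (hfib : k ≤ 1 ∨ ∃ y : F, ∀ x : N,
      ScalLEAt (fibreMetric Φ x (chartAt V y)) (chartAt V y y) (1 / 2)) [hM : Nonempty M]
    [ProperSpace N] :
    Dat μ (fun x => √(w x)) n (βN p + 2) (AN n p L) (CdN n) ok := by
  classical
  obtain ⟨p₀⟩ := hM
  haveI : Nonempty F := ⟨(Φ p₀).2⟩
  have h1 : 1 ≤ Module.finrank ℝ E := by omega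
  -- the point of `F`
  obtain ⟨y, hy⟩ : ∃ y : F, (Module.finrank ℝ V ≤ 1 ∨
      ∀ x : N, ScalLEAt (fibreMetric Φ x (chartAt V y)) (chartAt V y y) (1 / 2)) := by
    rcases hfib with h | ⟨y, hy⟩
    · exact ⟨(Φ p₀).2, Or.inl (by omega)⟩
    · exact ⟨y, Or.inr hy⟩
  obtain ⟨φ, hφ, hScF⟩ := H265.twist E V N F M w Φ hw hw0 hT h1 hScal y hy
  rw [hdE] at hScF
  set a : N → ℝ := fun x => Real.log (w x) / 2 with ha
  have hlog : ContMDiff 𝓘(ℝ, E) 𝓘(ℝ, ℝ) ∞ a := by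
    have h2 : ContMDiff 𝓘(ℝ, E) 𝓘(ℝ, ℝ) ∞ fun x => Real.log (w x) := fun x =>
      ((Real.contDiffAt_log.2 (hw0 x).ne').contMDiffAt).comp x (hw x)
    exact (h2.div_const 2)
  have hexp2 : (fun x => Real.exp (2 * a x) / 2) = fun x => w x / 2 := by
    funext x
    rw [ha]
    simp only
    rw [show 2 * (Real.log (w x) / 2) = Real.log (w x) by ring, Real.exp_log (hw0 x)]
  have hρw : (fun x => √(w x)) = fun x => Real.exp (a x) := by
    funext x
    rw [ha]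
    simp only
    rw [Real.sqrt_eq_rpow, Real.rpow_def_of_pos (hw0 x)]
    congr 1
    ring
  have hpt : ∀ q, TwS E n (fun x => Real.exp (2 * a x) / 2) a φ q ≤ S q := by
    rw [hexp2]
    exact scal_le hScF hSc
  have hβ0 := βN_pos hp
  rw [hρw]
  apply dat_of (by omega) hdE hμ hokm hRic
      (Real.continuous_exp.comp hlog.continuous) (fun x => Real.exp_pos _) (by linarith)
      (AN_pos hn hp L)
  intro x r hr hr1
  exact energyN hn hdE hμ hp hlog hφ hS hS0 hpt x hr (hRic r hr hr1) (hMor x r hr hr1)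

/-- The width of twisted products. -/
theorem fin [CompleteSpace N] {n : ℕ} (hn : 3 ≤ n) {p : ℝ} (hp : 1 < p) {L : ℝ} (D : ℝ)
    (μ : Measure N) (w S : N → ℝ)
    (Φ : Diffeomorph 𝓘(ℝ, E × V) (𝓘(ℝ, E).prod 𝓘(ℝ, V)) M (N × F) ∞)
    (hμ : IsVol E μ) (hw : ContMDiff 𝓘(ℝ, E) 𝓘(ℝ, ℝ) ∞ w) (hw0 : ∀ x, 0 < w x)
    (hT : IsTwisted w Φ) (hdE : Module.finrank ℝ E = n) {k : ℕ} (hdV : Module.finrank ℝ V = k)
    (hemb : EmbedsLE F k ∨ ∃ g : F → Fin k → UnitAddCircle, Continuous g ∧ Function.Injective g)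
    (hS : Continuous S) (hS0 : ∀ x, 0 ≤ S x) (hSc : ScalLEf E N S)
    (hcase : (CompleteSpace M ∧ RicGE E N 0 ∧ ∀ x r, 0 < r → ∫ y in ball x r, S y ^ p ∂μ ≤
        L * r ^ (-(2 * p)) * μ.real (ball x r)) ∨
      ∃ r₀ : ℝ, 0 < r₀ ∧ RicGE E N (-(1 / r₀ ^ 2)) ∧
        (∀ x r, 0 < r → r ≤ 2 * r₀ → ∫ y in ball x r, S y ^ p ∂μ ≤
          L * r ^ (-(2 * p)) * μ.real (ball x r)) ∧
        ∀ x y, Relation.ReflTransGen (fun a c => r₀ ^ 2 * w a ≤ ΛN n p L ∧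
          r₀ ^ 2 * w c ≤ ΛN n p L ∧ dist a c ≤ 4 * r₀) x y → dist x y ≤ D * r₀)
    (hScal : ScalGE (E × V) M 1)
    (hfib : k ≤ 1 ∨ ∃ y : F, ∀ x : N,
      ScalLEAt (fibreMetric Φ x (chartAt V y)) (chartAt V y y) (1 / 2)) :
    H53.UrysohnWidthLE M (n - 2 + k) (CB n p L D) := by
  classical
  rcases isEmpty_or_nonempty M with hM | hM
  · exact H912.urysohn_of_isEmpty _ _
  haveI : Nonempty F := ⟨(Φ hM.some).2⟩
  haveI : ProperSpace N := properSpace_riemannian E N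
  apply lift E V N F M w Φ hw hw0 hT hemb
  have hA := (AN_pos hn hp L).le
  have hCd : 0 < CdN n := zero_lt_one.trans_le (one_le_CdN n)
  have hD0 : 0 ≤ max D 0 := le_max_right _ _
  rcases hcase with ⟨hMc, hRic, hMor⟩ | ⟨r₀, hr₀, hRic, hMor, hchain⟩
  · have hdat := dat0 E V N F M hn hp (L := L) μ w S Φ hμ hw hw0 hT hdE hdV (ok := fun _ => True)
      (fun _ _ _ _ => trivial) (fun r hr _ => hRic.mono (by
        rw [neg_nonpos]
        positivity)) hS hS0 hSc (fun x r hr _ => hMor x (2 * r) (by positivity)) hScal hfib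
    obtain ⟨V₁, lam, hB, hd⟩ := hdat.widA (fun _ => trivial) (k := n - 2) (by omega)
      (ηN_pos hn hp) (ηN_lt hn hp) (ηN_b hn hp) (fun x => by
        haveI : ProperSpace M := properSpace_riemannian (E × V) M
        refine hdat.pot_inf (fun _ => trivial)
          (pl_slice hT hw.continuous hw0 (Φ hM.some).2 hM.some) (fun x => dist_nonneg)
          (fun c => ?_) x _
        have hc : IsCompact ((fun q : M => (Φ q).1) '' closedBall hM.some c) :=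
          (isCompact_closedBall _ _).image (continuous_fst.comp Φ.continuous)
        refine hc.isBounded.subset ?_
        intro z hz
        exact ⟨Φ.symm (z, (Φ hM.some).2), hz, by
          simp only
          rw [Φ.apply_symm_apply]⟩)
    refine ⟨V₁, lam, hB, fun x y hxy u hu => (hd x y hxy u hu).trans ?_⟩
    unfold CB
    change 4 * CdN n ^ 3 * 24 ^ n * 3 ^ n * LamN n p L ≤ _
    have : 0 ≤ 128 * (max D 0 + 2) *
      (CdN n ^ 3 * 3 ^ n * 6 ^ n * AN n p L ^ (1 / (βN p + 2))) := by positivity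
    linarith
  · have hdat := dat0 E V N F M hn hp (L := L) μ w S Φ hμ hw hw0 hT hdE hdV
      (ok := fun r => r ≤ r₀) (fun _ _ h1 h2 => h2.trans h1) (fun r hr hr1 => hRic.mono (by
        rw [neg_le_neg_iff]
        gcongr)) hS hS0 hSc (fun x r hr hr1 => hMor x (2 * r) (by positivity) (by
          linarith [show r ≤ r₀ from hr1])) hScal hfib
    have hLam0 : 0 < LamN n p L :=
      LamC_pos hdat.b1 hdat.a0 hdat.cd (ηN_pos hn hp) (ηN_b hn hp)
    obtain ⟨V₁, lam, hB, hd⟩ := hdat.widB hr₀ (le_refl r₀) (k := n - 2) (by omega)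
      (ηN_pos hn hp) (ηN_lt hn hp) (ηN_b hn hp) (D := max D 0) (by
        intro x y hxy
        have h2 : dist x y ≤ D * r₀ := by
          apply hchain x y
          refine Relation.ReflTransGen.mono (fun a c hac => ?_) _ _ hxy
          have key : ∀ a, r₀ * √(w a) ≤ 64 / 3 * LamN n p L → r₀ ^ 2 * w a ≤ ΛN n p L := by
            intro a ha
            calc r₀ ^ 2 * w a = (r₀ * √(w a)) ^ 2 := by rw [mul_pow, Real.sq_sqrt (hw0 a).le]
              _ ≤ (64 / 3 * LamN n p L) ^ 2 := by gcongr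
          exact ⟨key a hac.1, key c hac.2.1, hac.2.2⟩
        refine h2.trans ?_
        gcongr
        exact le_max_left _ _) hD0
    refine ⟨V₁, lam, hB, fun x y hxy u hu => (hd x y hxy u hu).trans ?_⟩
    unfold CB
    rfl

end Tw

end Vale.Agent.P210.Cw
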