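import Vale.Agent.P210.Cw.Tel

/-!
# Generic shifts of the functions of nets
-/

open scoped ENNReal NNReal Topology
open MeasureTheory Set Metric Filter

set_option linter.all false

noncomputable section

namespace Vale.Agent.P210.Cw

variable {X : Type} [MetricSpace X]

theorem exists_net (X : Type) [MetricSpace X] {ε : ℝ} (hε : 0 < ε) :
    ∃ S : Set X, (∀ x ∈ S, ∀ y ∈ S, x ≠ y → ε ≤ dist x y) ∧ ∀ x, ∃ y ∈ S, dist x y < ε := by
  obtain ⟨S, hS⟩ := zorn_subset {S : Set X | ∀ x ∈ S, ∀ y ∈ S, x ≠ y → ε ≤ dist x y} (by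
    intro c hc hchain
    refine ⟨⋃₀ c, ?_, fun s hs => subset_sUnion_of_mem hs⟩
    intro x hx y hy hne
    obtain ⟨s, hs, hxs⟩ := hx
    obtain ⟨t, ht, hyt⟩ := hy
    rcases hchain.total hs ht with h | h
    · exact hc ht x (h hxs) y hyt hne
    · exact hc hs x hxs y (h hyt) hne)
  refine ⟨S, hS.1, fun x => ?_⟩
  by_contra hcon
  push Not at hcon
  have h1 : insert x S ∈ {S : Set X | ∀ x ∈ S, ∀ y ∈ S, x ≠ y → ε ≤ dist x y} := by
    intro y hy z hz hne
    rcases hy with rfl | hy <;> rcases hz with rfl | hz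
    · exact absurd rfl hne
    · exact hcon z hz
    · rw [dist_comm]; exact hcon y hy
    · exact hS.1 y hy z hz hne
  have h2 : insert x S ⊆ S := hS.2 h1 (subset_insert x S)
  have h3 := hcon x (h2 (mem_insert x S))
  rw [dist_self] at h3
  linarith

/-- a system of vertices: nets at all admissible levels -/
structure Vs (X : Type) [MetricSpace X] (okl : ℤ → Prop) where
  ι : Type
  cnt : Countable ι
  lv : ι → ℤ
  ps : ι → X
  okv : ∀ p, okl (lv p)
  inj : ∀ p q, lv p = lv q → ps p = ps q → p = q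
  sep : ∀ p q, lv p = lv q → p ≠ q → (2 : ℝ) ^ lv p ≤ dist (ps p) (ps q)
  cov : ∀ j, okl j → ∀ x, ∃ p, lv p = j ∧ dist x (ps p) < (2 : ℝ) ^ j

theorem exists_vs (X : Type) [MetricSpace X] [TopologicalSpace.SeparableSpace X] (okl : ℤ → Prop) :
    Nonempty (Vs X okl) := by
  have h1 : ∀ j : ℤ, ∃ S : Set X, (∀ x ∈ S, ∀ y ∈ S, x ≠ y → (2 : ℝ) ^ j ≤ dist x y) ∧
      ∀ x, ∃ y ∈ S, dist x y < (2 : ℝ) ^ j := fun j => exists_net X (by positivity)
  choose net hs hc using h1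
  have hcnt : ∀ j, (net j).Countable := by
    intro j
    have h2 : (0 : ℝ) < (2 : ℝ) ^ j := by positivity
    refine PairwiseDisjoint.countable_of_isOpen (s := fun x : X => ball x ((2 : ℝ) ^ j / 2)) ?_
      (fun x _ => isOpen_ball) (fun x _ => ⟨x, mem_ball_self (by positivity)⟩)
    intro x hx y hy hne
    apply ball_disjoint_ball
    have := hs j x hx y hy hne
    linarith
  refine ⟨{ ι := {q : X × ℤ // okl q.2 ∧ q.1 ∈ net q.2}, cnt := ?_, lv := fun q => q.1.2,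
            ps := fun q => q.1.1, okv := fun q => q.2.1, inj := ?_, sep := ?_, cov := ?_ }⟩
  · have : (⋃ j : ℤ, (fun x => ((x, j) : X × ℤ)) '' net j).Countable :=
      countable_iUnion fun j => (hcnt j).image _
    have h3 : {q : X × ℤ | okl q.2 ∧ q.1 ∈ net q.2}.Countable := by
      refine this.mono fun q hq => ?_
      rw [mem_iUnion]
      exact ⟨q.2, q.1, hq.2, rfl⟩
    exact h3.to_subtype
  · intro p q h1 h2
    exact Subtype.ext (Prod.ext h2 h1)
  · intro p q h1 hne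
    apply hs p.1.2 _ p.2.2
    · rw [h1]; exact q.2.2
    · intro h2
      exact hne (Subtype.ext (Prod.ext h2 h1))
  · intro j hj x
    obtain ⟨y, hy, hxy⟩ := hc j x
    exact ⟨⟨(y, j), hj, hy⟩, rfl, hxy⟩

variable {okl : ℤ → Prop}

/-- the function of a vertex -/
def Vs.hat (V : Vs X okl) (p : V.ι) (x : X) : ℝ :=
  max 0 (1 - dist x (V.ps p) / (2 * (2 : ℝ) ^ V.lv p))

theorem Vs.continuous_hat (V : Vs X okl) (p : V.ι) : Continuous (V.hat p) := by
  unfold Vs.hat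
  fun_prop

theorem Vs.hat_lip (V : Vs X okl) (p : V.ι) {j : ℤ} (hj : j - 1 ≤ V.lv p) (x y : X) :
    |V.hat p y - V.hat p x| ≤ ((2 : ℝ) ^ j)⁻¹ * dist x y := by
  have h2 : (0 : ℝ) < (2 : ℝ) ^ V.lv p := by positivity
  have h2j : (0 : ℝ) < (2 : ℝ) ^ j := by positivity
  have hmono : (2 : ℝ) ^ j ≤ 2 * (2 : ℝ) ^ V.lv p := by
    have : (2 : ℝ) ^ j ≤ (2 : ℝ) ^ (V.lv p + 1) := zpow_le_zpow_right₀ (by norm_num) (by omega)
    rw [zpow_add₀ (by norm_num)] at this
    linarith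
  have hle : |V.hat p y - V.hat p x| ≤
      |(1 - dist y (V.ps p) / (2 * (2 : ℝ) ^ V.lv p)) -
        (1 - dist x (V.ps p) / (2 * (2 : ℝ) ^ V.lv p))| := by
    unfold Vs.hat
    have := abs_max_sub_max_le_abs (1 - dist y (V.ps p) / (2 * (2 : ℝ) ^ V.lv p))
      (1 - dist x (V.ps p) / (2 * (2 : ℝ) ^ V.lv p)) 0
    rwa [max_comm _ (0 : ℝ), max_comm _ (0 : ℝ)] at this
  refine hle.trans ?_
  have e1 : (1 - dist y (V.ps p) / (2 * (2 : ℝ) ^ V.lv p)) -
        (1 - dist x (V.ps p) / (2 * (2 : ℝ) ^ V.lv p)) =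
      (dist x (V.ps p) - dist y (V.ps p)) / (2 * (2 : ℝ) ^ V.lv p) := by ring
  rw [e1, abs_div, abs_of_pos (by positivity : (0 : ℝ) < 2 * (2 : ℝ) ^ V.lv p),
    div_le_iff₀ (by positivity)]
  have h3 : |dist x (V.ps p) - dist y (V.ps p)| ≤ dist x y := abs_dist_sub_le _ _ _
  refine h3.trans ?_
  have h4 : 1 ≤ ((2 : ℝ) ^ j)⁻¹ * (2 * (2 : ℝ) ^ V.lv p) := by
    rw [← div_eq_inv_mul, one_le_div h2j]
    exact hmono
  have h6 : 0 ≤ dist x y := dist_nonneg
  nlinarith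

theorem Vs.dist_of_hat (V : Vs X okl) (p : V.ι) {x : X} (h : 0 < V.hat p x) :
    dist x (V.ps p) < 2 * (2 : ℝ) ^ V.lv p := by
  unfold Vs.hat at h
  rw [lt_max_iff] at h
  rcases h with h | h
  · exact absurd h (lt_irrefl _)
  · have h3 : dist x (V.ps p) / (2 * (2 : ℝ) ^ V.lv p) < 1 := by linarith
    rwa [div_lt_one (by positivity)] at h3

theorem Vs.exists_hat (V : Vs X okl) {j : ℤ} (hj : okl j) (x : X) :
    ∃ p, V.lv p = j ∧ 1 / 2 < V.hat p x := by
  obtain ⟨p, hp, hx⟩ := V.cov j hj x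
  refine ⟨p, hp, ?_⟩
  unfold Vs.hat
  apply lt_max_of_lt_right
  rw [hp]
  have : dist x (V.ps p) / (2 * (2 : ℝ) ^ j) < 1 / 2 := by
    rw [div_lt_iff₀ (by positivity)]
    linarith
  linarith

/-- configurations of tied vertices -/
structure Cf (V : Vs X okl) (k : ℕ) where
  j : ℤ
  okj : okl j
  P : Fin k → V.ι
  B : Fin k → V.ι
  inj : Function.Injective P
  ne : ∀ i l, B i ≠ P l
  lev : ∀ q, (∃ i, q = P i ∨ q = B i) → V.lv q = j ∨ V.lv q = j - 1
  near : ∀ q q', (∃ i, q = P i ∨ q = B i) → (∃ i, q' = P i ∨ q' = B i) →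
    dist (V.ps q) (V.ps q') ≤ 4 * (2 : ℝ) ^ j

open Classical in
/-- the vertices of a configuration -/
def Cf.V {V : Vs X okl} {k : ℕ} (κ : Cf V k) : Finset V.ι :=
  Finset.univ.image κ.P ∪ Finset.univ.image κ.B

theorem Cf.mem_V {V : Vs X okl} {k : ℕ} (κ : Cf V k) (q : V.ι) :
    q ∈ κ.V ↔ ∃ i, q = κ.P i ∨ q = κ.B i := by
  classical
  unfold Cf.V
  simp only [Finset.mem_union, Finset.mem_image, Finset.mem_univ, true_and]
  constructor
  · rintro (⟨i, rfl⟩ | ⟨i, rfl⟩)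
    · exact ⟨i, Or.inl rfl⟩
    · exact ⟨i, Or.inr rfl⟩
  · rintro ⟨i, rfl | rfl⟩
    · exact Or.inl ⟨i, rfl⟩
    · exact Or.inr ⟨i, rfl⟩

theorem Cf.card_V {V : Vs X okl} {k : ℕ} (κ : Cf V k) : κ.V.card ≤ 2 * k := by
  classical
  unfold Cf.V
  refine (Finset.card_union_le _ _).trans ?_
  have h1 := Finset.card_image_le (s := (Finset.univ : Finset (Fin k))) (f := κ.P)
  have h2 := Finset.card_image_le (s := (Finset.univ : Finset (Fin k))) (f := κ.B)
  simp at h1 h2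
  omega

/-- the neighbours of a vertex -/
def Vs.nb (V : Vs X okl) (p : V.ι) : Set V.ι :=
  {q | V.lv p - 1 ≤ V.lv q ∧ V.lv q ≤ V.lv p + 1 ∧ dist (V.ps q) (V.ps p) ≤ 8 * (2 : ℝ) ^ V.lv p}

section

variable [ProperSpace X] [MeasurableSpace X] [BorelSpace X]
variable {μ : Measure X} {ρ : X → ℝ} {n : ℕ} {b A Cd : ℝ} {ok : ℝ → Prop}

theorem Dat.card_sep (h : Dat μ ρ n b A Cd ok) {κ : Type} (s : Finset κ) (f : κ → X) (x : X)
    {a ε : ℝ} (hε : 0 < ε) (ha : 0 ≤ a) (hok : ok (2 * a + ε))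
    (hd : ∀ y ∈ s, dist (f y) x ≤ a) (hsep : ∀ y ∈ s, ∀ z ∈ s, y ≠ z → ε ≤ dist (f y) (f z)) :
    (s.card : ℝ) ≤ Cd * ((4 * a + 2 * ε) / ε) ^ n := by
  have hCd : 0 < Cd := zero_lt_one.trans_le h.cd
  set m := μ.real (ball x (a + ε / 2)) with hm
  have hm0 : 0 < m := h.real_pos x (by positivity)
  set Q := Cd * ((4 * a + 2 * ε) / ε) ^ n with hQ
  have hQ0 : 0 < Q := by positivity
  have h1 : ∀ y ∈ s, m ≤ Q * μ.real (ball (f y) (ε / 2)) := by
    intro y hy
    have k1 := h.dbl (f y) (ε / 2) (2 * a + ε) (by positivity) (by linarith) hok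
    rw [show (2 * a + ε) / (ε / 2) = (4 * a + 2 * ε) / ε by field_simp; ring] at k1
    refine le_trans ?_ k1
    exact measureReal_mono (ball_subset_ball' (by linarith [hd y hy, dist_comm x (f y)]))
      (h.ball_lt _ _).ne
  have h2 : ∑ y ∈ s, μ.real (ball (f y) (ε / 2)) ≤ m := by
    have h3 : μ.real (⋃ y ∈ s, ball (f y) (ε / 2)) = ∑ y ∈ s, μ.real (ball (f y) (ε / 2)) := by
      apply measureReal_biUnion_finset
      · intro y hy z hz hne
        apply ball_disjoint_ball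
        have := hsep y hy z hz hne
        linarith
      · intro y _
        exact measurableSet_ball
      · intro y _
        exact (h.ball_lt _ _).ne
    rw [← h3]
    apply measureReal_mono _ (h.ball_lt _ _).ne
    apply iUnion₂_subset
    intro y hy
    exact ball_subset_ball' (by linarith [hd y hy])
  have h4 : (s.card : ℝ) * m ≤ Q * m := by
    calc (s.card : ℝ) * m = ∑ _y ∈ s, m := by rw [Finset.sum_const, nsmul_eq_mul]
      _ ≤ ∑ y ∈ s, Q * μ.real (ball (f y) (ε / 2)) := Finset.sum_le_sum h1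
      _ = Q * ∑ y ∈ s, μ.real (ball (f y) (ε / 2)) := by rw [Finset.mul_sum]
      _ ≤ Q * m := by gcongr
  exact le_of_mul_le_mul_right h4 hm0

theorem finite_of_card {ι : Type} {S : Set ι} {N : ℕ} (h : ∀ s : Finset ι, (s : Set ι) ⊆ S →
    s.card ≤ N) : S.Finite ∧ S.ncard ≤ N := by
  have hfin : S.Finite := by
    by_contra hcon
    obtain ⟨t, ht, hc⟩ := Set.Infinite.exists_subset_card_eq hcon (N + 1)
    have := h t ht
    omega
  refine ⟨hfin, ?_⟩
  rw [Set.ncard_eq_toFinset_card _ hfin]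
  apply h
  simp

/-- bound for the number of neighbours -/
def nbB (n : ℕ) (Cd : ℝ) : ℕ := 3 * ⌊Cd * (66 : ℝ) ^ n⌋₊

theorem Dat.nb_finite (h : Dat μ ρ n b A Cd ok) (V : Vs X okl)
    (hokl : ∀ j, okl j → ok (1024 * (2 : ℝ) ^ j)) (p : V.ι) :
    (V.nb p).Finite ∧ (V.nb p).ncard ≤ nbB n Cd := by
  classical
  apply finite_of_card
  intro s hs
  set l := V.lv p with hl
  have h2l : (0 : ℝ) < (2 : ℝ) ^ l := by positivity
  have hlev : ∀ i : ℤ, (l - 1 ≤ i) →
      (s.filter fun q => V.lv q = i).card ≤ ⌊Cd * (66 : ℝ) ^ n⌋₊ := by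
    intro i hi
    apply Nat.le_floor
    have h3 : (2 : ℝ) ^ l / 2 ≤ (2 : ℝ) ^ i := by
      have : (2 : ℝ) ^ (l - 1) ≤ (2 : ℝ) ^ i := zpow_le_zpow_right₀ (by norm_num) hi
      rwa [zpow_sub₀ (by norm_num), zpow_one] at this
    have h4 := h.card_sep (s.filter fun q => V.lv q = i) V.ps (V.ps p) (a := 8 * (2 : ℝ) ^ l)
      (ε := (2 : ℝ) ^ l / 2) (by positivity) (by positivity)
      (h.okm _ _ (hokl _ (V.okv p)) (by rw [← hl]; linarith))
      (fun q hq => (hs (Finset.mem_filter.1 hq).1).2.2)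
      (fun q hq q' hq' hne => by
        have e1 := (Finset.mem_filter.1 hq).2
        have e2 := (Finset.mem_filter.1 hq').2
        have := V.sep q q' (e1.trans e2.symm) hne
        rw [e1] at this
        linarith)
    rwa [show (4 * (8 * (2 : ℝ) ^ l) + 2 * ((2 : ℝ) ^ l / 2)) / ((2 : ℝ) ^ l / 2) = 66 by
      field_simp; norm_num] at h4
  have hsub : s ⊆ (s.filter fun q => V.lv q = l - 1) ∪ (s.filter fun q => V.lv q = l) ∪
      (s.filter fun q => V.lv q = l + 1) := by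
    intro q hq
    obtain ⟨h5, h6, -⟩ := hs hq
    simp only [Finset.mem_union, Finset.mem_filter, hq, true_and]
    omega
  refine (Finset.card_le_card hsub).trans ((Finset.card_union_le _ _).trans ?_)
  have h7 := Finset.card_union_le (s.filter fun q => V.lv q = l - 1) (s.filter fun q => V.lv q = l)
  have h8 := hlev (l - 1) (by omega)
  have h9 := hlev l (by omega)
  have h10 := hlev (l + 1) (by omega)
  unfold nbB
  omega

theorem Dat.cf_count (h : Dat μ ρ n b A Cd ok) (V : Vs X okl)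
    (hokl : ∀ j, okl j → ok (1024 * (2 : ℝ) ^ j)) (k : ℕ) (p : V.ι) :
    {κ : Cf V k | p ∈ κ.V}.Finite ∧
      {κ : Cf V k | p ∈ κ.V}.ncard ≤ 2 * (nbB n Cd ^ k * nbB n Cd ^ k) := by
  classical
  obtain ⟨hfin, hcard⟩ := h.nb_finite V hokl p
  set T : Finset V.ι := hfin.toFinset with hT
  have hTc : T.card ≤ nbB n Cd := by
    rw [hT, ← Set.ncard_eq_toFinset_card _ hfin]
    exact hcard
  let t : Finset (ℤ × ((Fin k → V.ι) × (Fin k → V.ι))) :=
    ({V.lv p, V.lv p + 1} : Finset ℤ) ×ˢ ((Fintype.piFinset (fun _ => T)) ×ˢ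
      (Fintype.piFinset (fun _ => T)))
  let f : Cf V k → ℤ × ((Fin k → V.ι) × (Fin k → V.ι)) := fun κ => (κ.j, κ.P, κ.B)
  have hmem : ∀ κ ∈ {κ : Cf V k | p ∈ κ.V}, f κ ∈ (t : Set _) := by
    intro κ hκ
    simp only [mem_ofPred_eq] at hκ
    rw [κ.mem_V] at hκ
    have hp := κ.lev p hκ
    simp only [f, t, Finset.coe_product, Set.mem_prod, Finset.mem_coe, Finset.mem_insert,
      Finset.mem_singleton, Fintype.mem_piFinset]
    have hV : ∀ q, (∃ i, q = κ.P i ∨ q = κ.B i) → q ∈ T := by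
      intro q hq
      rw [hT, Finite.mem_toFinset]
      have hq' := κ.lev q hq
      have hd := κ.near q p hq hκ
      have h2 : (2 : ℝ) ^ κ.j ≤ 2 * (2 : ℝ) ^ V.lv p := by
        have : (2 : ℝ) ^ κ.j ≤ (2 : ℝ) ^ (V.lv p + 1) :=
          zpow_le_zpow_right₀ (by norm_num) (by omega)
        rw [zpow_add₀ (by norm_num)] at this
        linarith
      exact ⟨by omega, by omega, by linarith⟩
    refine ⟨?_, ?_, ?_⟩
    · rcases hp with h | h <;> omega
    · exact fun i => hV _ ⟨i, Or.inl rfl⟩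
    · exact fun i => hV _ ⟨i, Or.inr rfl⟩
  have hinj : InjOn f {κ : Cf V k | p ∈ κ.V} := by
    intro κ _ κ' _ h
    cases κ; cases κ'
    simp only [f, Prod.mk.injEq] at h
    obtain ⟨h1, h2, h3⟩ := h
    subst h1; subst h2; subst h3
    rfl
  have hfin : (t : Set (ℤ × ((Fin k → V.ι) × (Fin k → V.ι)))).Finite := t.finite_toSet
  refine ⟨Set.Finite.of_injOn hmem hinj hfin, ?_⟩
  refine (Set.ncard_le_ncard_of_injOn f hmem hinj hfin).trans ?_
  rw [Set.ncard_coe_finset]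
  simp only [t, Finset.card_product, Fintype.card_piFinset, Finset.prod_const, Finset.card_univ,
    Fintype.card_fin]
  have h2 : ({V.lv p, V.lv p + 1} : Finset ℤ).card ≤ 2 := Finset.card_le_two
  gcongr

end

end Vale.Agent.P210.Cw
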