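import Vale.Agent.P210.Cw.Pot

/-!
# Potentials on metric measure spaces: estimates
-/

open scoped ENNReal NNReal Topology
open MeasureTheory Set Metric Filter

set_option linter.all false

noncomputable section

namespace Vale.Agent.P210.Cw

variable {X : Type} [MetricSpace X] [ProperSpace X] [MeasurableSpace X] [BorelSpace X]
variable {μ : Measure X} {ρ : X → ℝ} {n : ℕ} {b A Cd : ℝ} {ok : ℝ → Prop}

theorem Dat.cont_pow (h : Dat μ ρ n b A Cd ok) : Continuous fun y => ρ y ^ b :=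
  h.rc.rpow_const fun y => Or.inl (h.rp y).ne'

/-- Hölder -/
theorem Dat.holder (h : Dat μ ρ n b A Cd ok) (x : X) (r : ℝ) :
    ∫ y in ball x r, ρ y ∂μ ≤
      (∫ y in ball x r, ρ y ^ b ∂μ) ^ (1 / b) * (μ.real (ball x r)) ^ (1 - 1 / b) := by
  have hb0 : 0 < b := zero_lt_one.trans h.b1
  have h1 := lintegral_le_rpow (μ.restrict (ball x r)) h.b1.le
    (f := fun y => ENNReal.ofReal (ρ y)) (h.rc.measurable.ennreal_ofReal.aemeasurable)
  rw [Measure.restrict_apply_univ] at h1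
  have e1 : ∫⁻ y in ball x r, ENNReal.ofReal (ρ y) ∂μ =
      ENNReal.ofReal (∫ y in ball x r, ρ y ∂μ) :=
    (ofReal_integral_eq_lintegral_ofReal (h.int_ball h.rc x r)
      (Eventually.of_forall fun y => (h.rp y).le)).symm
  have e2 : ∫⁻ y in ball x r, ENNReal.ofReal (ρ y) ^ b ∂μ =
      ENNReal.ofReal (∫ y in ball x r, ρ y ^ b ∂μ) := by
    rw [ofReal_integral_eq_lintegral_ofReal (h.int_ball h.cont_pow x r)
      (Eventually.of_forall fun y => (Real.rpow_pos_of_pos (h.rp y) b).le)]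
    apply lintegral_congr
    intro y
    rw [ENNReal.ofReal_rpow_of_pos (h.rp y)]
  have h0 : 0 ≤ ∫ y in ball x r, ρ y ^ b ∂μ :=
    integral_nonneg fun y => (Real.rpow_pos_of_pos (h.rp y) b).le
  have h1b : 0 ≤ 1 - 1 / b := by
    rw [sub_nonneg, div_le_one hb0]; exact h.b1.le
  have e3 : μ (ball x r) = ENNReal.ofReal (μ.real (ball x r)) :=
    (ENNReal.ofReal_toReal (h.ball_lt x r).ne).symm
  rw [e1, e2, e3, ENNReal.ofReal_rpow_of_nonneg h0 (by positivity),
    ENNReal.ofReal_rpow_of_nonneg measureReal_nonneg h1b,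
    ← ENNReal.ofReal_mul (by positivity)] at h1
  exact (ENNReal.ofReal_le_ofReal_iff (by positivity)).1 h1

theorem Dat.av_le (h : Dat μ ρ n b A Cd ok) (x : X) {s : ℝ} (hs : 0 < s) :
    av μ ρ x s ≤ (∫ y in ball x (2 * s), ρ y ∂μ) / μ.real (ball x s) := by
  unfold av
  have h1 := h.num_le h.rc (fun y => (h.rp y).le) x hs.le
  have h2 := h.den_ge x hs.le
  have h3 := h.real_pos x hs
  have h4 : 0 ≤ ∫ y in ball x (2 * s), ρ y ∂μ := integral_nonneg fun y => (h.rp y).le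
  calc num μ ρ x s / num μ (fun _ => 1) x s
      ≤ (s * ∫ y in ball x (2 * s), ρ y ∂μ) / (s * μ.real (ball x s)) := by gcongr
    _ = _ := by field_simp

theorem Dat.av_ge (h : Dat μ ρ n b A Cd ok) (x : X) {r s : ℝ} (hr : 0 < r) (h1 : 3 * r ≤ s)
    (h2 : s ≤ 6 * r) :
    (∫ y in ball x (3 * r), ρ y ∂μ) / μ.real (ball x (12 * r)) ≤ av μ ρ x s := by
  have hs : 0 < s := by linarith
  have h3 := h.num_ge h.rc (fun y => (h.rp y).le) x hs.le h1
  have h4 := h.den_le x hs.le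
  have h5 : μ.real (ball x (2 * s)) ≤ μ.real (ball x (12 * r)) :=
    measureReal_mono (ball_subset_ball (by linarith)) (h.ball_lt x _).ne
  have h6 := h.den_pos x hs
  have h7 : 0 ≤ ∫ y in ball x (3 * r), ρ y ∂μ := integral_nonneg fun y => (h.rp y).le
  have h8 := h.real_pos x (show 0 < 12 * r by linarith)
  unfold av
  rw [div_le_div_iff₀ h8 h6]
  calc (∫ y in ball x (3 * r), ρ y ∂μ) * num μ (fun _ => 1) x s
      ≤ (∫ y in ball x (3 * r), ρ y ∂μ) * (s * μ.real (ball x (12 * r))) := by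
        gcongr
        exact h4.trans (by gcongr)
    _ = (s * ∫ y in ball x (3 * r), ρ y ∂μ) * μ.real (ball x (12 * r)) := by ring
    _ ≤ num μ ρ x s * μ.real (ball x (12 * r)) := by gcongr

theorem Dat.pot_le (h : Dat μ ρ n b A Cd ok) {κ : ℝ} (hκ : (n : ℝ) - κ < b) (x : X) {R Q : ℝ}
    (hR : 0 < R) (hok : ok (2 * R)) (hQ : 0 ≤ Q)
    (hE : ∀ s ∈ Ioo (0 : ℝ) R, ∫ y in ball x (2 * s), ρ y ^ b ∂μ ≤ Q * s ^ κ) :
    pot μ ρ x R ≤ Cd * 2 ^ n * Cd ^ (1 / b) / (1 - ((n : ℝ) - κ) / b) *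
      (R * (Q * R ^ κ / μ.real (ball x (2 * R))) ^ (1 / b)) := by
  have hb0 : 0 < b := zero_lt_one.trans h.b1
  set θ : ℝ := ((n : ℝ) - κ) / b with hθ
  have hθ1 : θ < 1 := by rw [hθ, div_lt_one hb0]; exact hκ
  have hCd : 0 < Cd := zero_lt_one.trans_le h.cd
  set M : ℝ := μ.real (ball x (2 * R)) with hM
  have hM0 : 0 < M := h.real_pos x (by linarith)
  have hrpow : IntegrableOn (fun t : ℝ => t ^ (-θ)) (Ioo 0 R) := by
    rw [intervalIntegral.integrableOn_Ioo_rpow_iff hR]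
    linarith
  have key : ∀ s ∈ Ioo (0 : ℝ) R, av μ ρ x s ≤
      Cd * 2 ^ n * (Cd * (Q * R ^ n / M)) ^ (1 / b) * s ^ (-θ) := by
    intro s hs
    have hs0 : 0 < s := hs.1
    set m1 := μ.real (ball x s) with hm1
    set m2 := μ.real (ball x (2 * s)) with hm2
    have hm10 : 0 < m1 := h.real_pos x hs0
    have hm20 : 0 < m2 := h.real_pos x (by linarith)
    have d1 : m2 ≤ Cd * 2 ^ n * m1 := by
      have := h.dbl x s (2 * s) hs0 (by linarith) (h.okm _ _ hok (by linarith [hs.2]))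
      rwa [show 2 * s / s = 2 by field_simp] at this
    have d2 : M ≤ Cd * (R / s) ^ n * m2 := by
      have := h.dbl x (2 * s) (2 * R) (by linarith) (by linarith [hs.2]) hok
      rwa [show 2 * R / (2 * s) = R / s by field_simp] at this
    have k1 := h.av_le x hs0
    have k2 := h.holder x (2 * s)
    have k3 : (∫ y in ball x (2 * s), ρ y ^ b ∂μ) ^ (1 / b) ≤ (Q * s ^ κ) ^ (1 / b) := by
      apply Real.rpow_le_rpow _ (hE s hs) (by positivity)
      exact integral_nonneg fun y => (Real.rpow_pos_of_pos (h.rp y) b).le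
    have e1 : m2 ^ (1 - 1 / b) = m2 / m2 ^ (1 / b) := by
      rw [Real.rpow_sub hm20, Real.rpow_one]
    calc av μ ρ x s ≤ (∫ y in ball x (2 * s), ρ y ∂μ) / m1 := k1
      _ ≤ ((Q * s ^ κ) ^ (1 / b) * m2 ^ (1 - 1 / b)) / m1 := by
          gcongr
          exact k2.trans (by gcongr)
      _ = (m2 / m1) * ((Q * s ^ κ) / m2) ^ (1 / b) := by
          rw [e1, Real.div_rpow (by positivity) hm20.le]
          ring
      _ ≤ (Cd * 2 ^ n) * (Cd * (Q * R ^ n / M) * s ^ (κ - n)) ^ (1 / b) := by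
          gcongr
          · rw [div_le_iff₀ hm10]; exact d1
          · rw [div_le_iff₀ hm20]
            have e2 : Cd * (Q * R ^ n / M) * s ^ (κ - n) * m2 =
                (Q * s ^ κ) * (Cd * (R / s) ^ n * m2) / M := by
              rw [Real.rpow_sub hs0, Real.rpow_natCast, div_pow]
              field_simp
            rw [e2, le_div_iff₀ hM0]
            gcongr
      _ = Cd * 2 ^ n * (Cd * (Q * R ^ n / M)) ^ (1 / b) * s ^ (-θ) := by
          rw [Real.mul_rpow (by positivity) (by positivity), ← Real.rpow_mul hs0.le, hθ,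
            show (κ - n) * (1 / b) = -(((n : ℝ) - κ) / b) by ring]
          ring
  have h1 : pot μ ρ x R ≤
      ∫ s in Ioo 0 R, Cd * 2 ^ n * (Cd * (Q * R ^ n / M)) ^ (1 / b) * s ^ (-θ) := by
    unfold pot
    exact setIntegral_mono_on (h.int_av x R) (hrpow.const_mul _) measurableSet_Ioo key
  rw [integral_const_mul] at h1
  have h2 : ∫ s in Ioo 0 R, s ^ (-θ) = R ^ (1 - θ) / (1 - θ) := by
    rw [← integral_Ioc_eq_integral_Ioo, ← intervalIntegral.integral_of_le hR.le,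
      integral_rpow (Or.inl (by linarith))]
    have : (0 : ℝ) ^ (-θ + 1) = 0 := Real.zero_rpow (by linarith)
    rw [this, sub_zero, show -θ + 1 = 1 - θ by ring]
  rw [h2] at h1
  refine h1.trans (le_of_eq ?_)
  have e3 : (Q * R ^ n / M) ^ (1 / b) * R ^ (1 - θ) = R * (Q * R ^ κ / M) ^ (1 / b) := by
    have e4 : Q * R ^ n / M = Q * R ^ κ / M * R ^ ((n : ℝ) - κ) := by
      rw [Real.rpow_sub hR, Real.rpow_natCast]
      field_simp
    rw [e4, Real.mul_rpow (by positivity) (by positivity), ← Real.rpow_mul hR.le, mul_assoc,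
      ← Real.rpow_add hR, show ((n : ℝ) - κ) * (1 / b) + (1 - θ) = 1 by rw [hθ]; ring,
      Real.rpow_one]
    ring
  rw [Real.mul_rpow hCd.le (by positivity)]
  calc Cd * 2 ^ n * (Cd ^ (1 / b) * (Q * R ^ n / M) ^ (1 / b)) * (R ^ (1 - θ) / (1 - θ))
      = Cd * 2 ^ n * Cd ^ (1 / b) / (1 - θ) * ((Q * R ^ n / M) ^ (1 / b) * R ^ (1 - θ)) := by ring
    _ = _ := by rw [e3]

/-- average over a ball -/
def uav (μ : Measure X) (u : X → ℝ) (x : X) (r : ℝ) : ℝ :=
  (∫ y in ball x r, u y ∂μ) / μ.real (ball x r)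

theorem PL.continuous {ρ u : X → ℝ} (hu : PL ρ u) : Continuous u := by
  rw [continuous_iff_continuousAt]
  intro z
  rw [ContinuousAt, tendsto_iff_dist_tendsto_zero]
  have h1 := hu z 1 one_pos
  have h2 : Tendsto (fun y => (ρ z + 1) * dist y z) (𝓝 z) (𝓝 0) := by
    have : ContinuousAt (fun y => (ρ z + 1) * dist y z) z := by fun_prop
    simpa [ContinuousAt] using this
  exact squeeze_zero' (Eventually.of_forall fun _ => dist_nonneg) h1 h2

theorem Dat.uav_cmp (h : Dat μ ρ n b A Cd ok) {u : X → ℝ} (hu : PL ρ u) {x x₁ x₂ : X}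
    {r r₁ r₂ : ℝ} (hr : 0 < r) (hr₁ : 0 < r₁) (hr₂ : 0 < r₂) (hok : ok r)
    (h1 : ball x₁ r₁ ⊆ ball x r) (h2 : ball x₂ r₂ ⊆ ball x r) :
    |uav μ u x₁ r₁ - uav μ u x₂ r₂| ≤
      Cd * r * μ.real (ball x r) * (∫ y in ball x (3 * r), ρ y ∂μ) /
        (μ.real (ball x₁ r₁) * μ.real (ball x₂ r₂)) := by
  have m1 := h.real_pos x₁ hr₁
  have m2 := h.real_pos x₂ hr₂
  have h3 := h.poi u hu x r hr hok (ball x₁ r₁) (ball x₂ r₂) measurableSet_ball measurableSet_ball
    h1 h2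
  have e1 : uav μ u x₁ r₁ - uav μ u x₂ r₂ =
      (μ.real (ball x₂ r₂) * ∫ y in ball x₁ r₁, u y ∂μ -
        μ.real (ball x₁ r₁) * ∫ y in ball x₂ r₂, u y ∂μ) /
        (μ.real (ball x₁ r₁) * μ.real (ball x₂ r₂)) := by
    unfold uav
    field_simp
  rw [e1, abs_div, abs_of_pos (mul_pos m1 m2)]
  gcongr

theorem Dat.pot_diff (h : Dat μ ρ n b A Cd ok) (x : X) {r : ℝ} (hr : 0 < r) :
    3 * r * (∫ y in ball x (3 * r), ρ y ∂μ) ≤
      μ.real (ball x (12 * r)) * (pot μ ρ x (6 * r) - pot μ ρ x (3 * r)) := by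
  have h8 := h.real_pos x (show 0 < 12 * r by linarith)
  have h1 := h.pot_ge x (R := 3 * r) (R' := 6 * r)
    (B := (∫ y in ball x (3 * r), ρ y ∂μ) / μ.real (ball x (12 * r))) (by linarith) (by linarith)
    (fun s hs hs' => h.av_ge x hr hs hs'.le)
  have h2 : 3 * r * ((∫ y in ball x (3 * r), ρ y ∂μ) / μ.real (ball x (12 * r))) ≤
      pot μ ρ x (6 * r) - pot μ ρ x (3 * r) := by
    have : 6 * r - 3 * r = 3 * r := by ring
    rw [this] at h1
    linarith
  generalize μ.real (ball x (12 * r)) = m at *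
  generalize (∫ y in ball x (3 * r), ρ y ∂μ) = I at *
  generalize pot μ ρ x (6 * r) - pot μ ρ x (3 * r) = P at *
  calc 3 * r * I = m * (3 * r * (I / m)) := by field_simp
    _ ≤ _ := by gcongr

/-- comparison of averages with the potential -/
theorem Dat.uav_pot (h : Dat μ ρ n b A Cd ok) {u : X → ℝ} (hu : PL ρ u) {x x₁ x₂ : X}
    {r r₁ r₂ c₁ c₂ : ℝ} (hr : 0 < r) (hr₁ : 0 < r₁) (hr₂ : 0 < r₂) (hok : ok r)
    (h1 : ball x₁ r₁ ⊆ ball x r) (h2 : ball x₂ r₂ ⊆ ball x r)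
    (hc₁ : μ.real (ball x (12 * r)) ≤ c₁ * μ.real (ball x₁ r₁))
    (hc₂ : μ.real (ball x r) ≤ c₂ * μ.real (ball x₂ r₂)) :
    |uav μ u x₁ r₁ - uav μ u x₂ r₂| ≤
      Cd * c₁ * c₂ * (pot μ ρ x (6 * r) - pot μ ρ x (3 * r)) := by
  have m1 := h.real_pos x₁ hr₁
  have m2 := h.real_pos x₂ hr₂
  have m3 := h.real_pos x hr
  have m4 := h.real_pos x (show 0 < 12 * r by linarith)
  have hCd : 0 < Cd := zero_lt_one.trans_le h.cd
  have hI : 0 ≤ ∫ y in ball x (3 * r), ρ y ∂μ := integral_nonneg fun y => (h.rp y).le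
  have hp : 0 ≤ pot μ ρ x (6 * r) - pot μ ρ x (3 * r) := by
    have := h.pot_mono x (R := 3 * r) (R' := 6 * r) (by linarith) (by linarith)
    linarith
  have hd := h.pot_diff x hr
  have hc₂0 : 0 ≤ c₂ := by
    by_contra hcon
    push Not at hcon
    have := mul_neg_of_neg_of_pos hcon m2
    linarith
  refine (h.uav_cmp hu hr hr₁ hr₂ hok h1 h2).trans ?_
  rw [div_le_iff₀ (mul_pos m1 m2)]
  calc Cd * r * μ.real (ball x r) * (∫ y in ball x (3 * r), ρ y ∂μ)
      ≤ Cd * μ.real (ball x r) * (3 * r * ∫ y in ball x (3 * r), ρ y ∂μ) := by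
        have : 0 ≤ Cd * μ.real (ball x r) * (r * ∫ y in ball x (3 * r), ρ y ∂μ) := by positivity
        nlinarith
    _ ≤ Cd * (c₂ * μ.real (ball x₂ r₂)) * (μ.real (ball x (12 * r)) *
          (pot μ ρ x (6 * r) - pot μ ρ x (3 * r))) := by gcongr
    _ ≤ Cd * (c₂ * μ.real (ball x₂ r₂)) * ((c₁ * μ.real (ball x₁ r₁)) *
          (pot μ ρ x (6 * r) - pot μ ρ x (3 * r))) := by gcongr
    _ = _ := by ring

theorem Dat.uav_half (h : Dat μ ρ n b A Cd ok) {u : X → ℝ} (hu : PL ρ u) (x : X) {r : ℝ}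
    (hr : 0 < r) (hok : ok (12 * r)) :
    |uav μ u x (r / 2) - uav μ u x r| ≤
      Cd ^ 2 * 24 ^ n * (pot μ ρ x (6 * r) - pot μ ρ x (3 * r)) := by
  have h1 := h.uav_pot hu (x := x) (x₁ := x) (x₂ := x) (r := r) (r₁ := r / 2) (r₂ := r)
    (c₁ := Cd * 24 ^ n) (c₂ := 1) hr (by linarith) hr (h.okm _ _ hok (by linarith))
    (ball_subset_ball (by linarith)) subset_rfl
    (by
      have := h.dbl x (r / 2) (12 * r) (by linarith) (by linarith) hok
      rwa [show 12 * r / (r / 2) = 24 by field_simp; norm_num] at this) (by simp)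
  refine h1.trans (le_of_eq (by ring))

theorem Dat.uav_tel (h : Dat μ ρ n b A Cd ok) {u : X → ℝ} (hu : PL ρ u) (x : X) {r : ℝ}
    (hr : 0 < r) (hok : ok (12 * r)) (N : ℕ) :
    |uav μ u x (r / 2 ^ N) - uav μ u x r| ≤
      Cd ^ 2 * 24 ^ n * (pot μ ρ x (6 * r) - pot μ ρ x (6 * (r / 2 ^ N))) := by
  induction N with
  | zero => simp
  | succ N ih =>
    have hrN : 0 < r / 2 ^ N := by positivity
    have hle : r / 2 ^ N ≤ r := div_le_self hr.le (one_le_pow₀ (by norm_num))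
    have h1 := h.uav_half hu x hrN (h.okm _ _ hok (by linarith))
    have e1 : r / 2 ^ N / 2 = r / 2 ^ (N + 1) := by rw [pow_succ]; field_simp
    have e2 : 3 * (r / 2 ^ N) = 6 * (r / 2 ^ (N + 1)) := by rw [pow_succ]; field_simp; norm_num
    rw [e1, e2] at h1
    calc |uav μ u x (r / 2 ^ (N + 1)) - uav μ u x r|
        = |(uav μ u x (r / 2 ^ (N + 1)) - uav μ u x (r / 2 ^ N)) +
            (uav μ u x (r / 2 ^ N) - uav μ u x r)| := by congr 1; ring
      _ ≤ _ := abs_add_le _ _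
      _ ≤ Cd ^ 2 * 24 ^ n * (pot μ ρ x (6 * (r / 2 ^ N)) - pot μ ρ x (6 * (r / 2 ^ (N + 1)))) +
          Cd ^ 2 * 24 ^ n * (pot μ ρ x (6 * r) - pot μ ρ x (6 * (r / 2 ^ N))) :=
          add_le_add h1 ih
      _ = _ := by ring

/-- the value at the centre and the average -/
theorem Dat.uav_center (h : Dat μ ρ n b A Cd ok) {u : X → ℝ} (hu : PL ρ u) (x : X) {r : ℝ}
    (hr : 0 < r) (hok : ok (12 * r)) :
    |u x - uav μ u x r| ≤ Cd ^ 2 * 24 ^ n * pot μ ρ x (6 * r) := by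
  have hCd : 0 < Cd := zero_lt_one.trans_le h.cd
  refine le_of_forall_pos_le_add fun ε hε => ?_
  obtain ⟨δ, hδ, hδ2⟩ := Metric.continuousAt_iff.1 (hu.continuous.continuousAt (x := x)) ε hε
  obtain ⟨N, hN⟩ : ∃ N : ℕ, r / 2 ^ N < δ := by
    obtain ⟨N, hN⟩ := pow_unbounded_of_one_lt (r / δ) (by norm_num : (1 : ℝ) < 2)
    refine ⟨N, ?_⟩
    rw [div_lt_iff₀ hδ] at hN
    rw [div_lt_iff₀ (by positivity)]
    linarith
  have hrN : 0 < r / 2 ^ N := by positivity
  have m := h.real_pos x hrN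
  have h1 : |u x - uav μ u x (r / 2 ^ N)| ≤ ε := by
    have hub := h.int_ball hu.continuous x (r / 2 ^ N)
    have hfin : μ (ball x (r / 2 ^ N)) ≠ ⊤ := (h.ball_lt x _).ne
    have hcst : IntegrableOn (fun _ : X => u x) (ball x (r / 2 ^ N)) μ := integrableOn_const hfin
    have e1 : u x - uav μ u x (r / 2 ^ N) =
        (∫ y in ball x (r / 2 ^ N), (u x - u y) ∂μ) / μ.real (ball x (r / 2 ^ N)) := by
      rw [integral_sub hcst hub, setIntegral_const]
      unfold uav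
      simp only [smul_eq_mul]
      generalize μ.real (ball x (r / 2 ^ N)) = m at *
      field_simp
    rw [e1, abs_div, abs_of_pos m, div_le_iff₀ m]
    have h2 := norm_setIntegral_le_of_norm_le_const (μ := μ) (s := ball x (r / 2 ^ N))
      (f := fun y => u x - u y) (C := ε) (lt_top_iff_ne_top.2 hfin) (fun y hy => by
        rw [mem_ball] at hy
        have := hδ2 (hy.trans hN)
        rw [Real.dist_eq] at this
        rw [Real.norm_eq_abs, abs_sub_comm]
        exact this.le)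
    simpa [Real.norm_eq_abs] using h2
  have h3 := h.uav_tel hu x hr hok N
  have h4 := h.pot_nonneg x (6 * (r / 2 ^ N))
  calc |u x - uav μ u x r| = |(u x - uav μ u x (r / 2 ^ N)) +
        (uav μ u x (r / 2 ^ N) - uav μ u x r)| := by congr 1; ring
    _ ≤ _ := abs_add_le _ _
    _ ≤ ε + Cd ^ 2 * 24 ^ n * (pot μ ρ x (6 * r) - pot μ ρ x (6 * (r / 2 ^ N))) :=
        add_le_add h1 h3
    _ ≤ ε + Cd ^ 2 * 24 ^ n * pot μ ρ x (6 * r) := by
        gcongr
        linarith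
    _ = _ := by ring

theorem Dat.dbl' (h : Dat μ ρ n b A Cd ok) {x y : X} {s t : ℝ} (hs : 0 < s)
    (hxy : dist x y + s ≤ t) {q : ℝ} (hq : s * q = dist x y + t) (hok : ok (dist x y + t)) :
    μ.real (ball x t) ≤ Cd * q ^ n * μ.real (ball y s) := by
  have hd : 0 ≤ dist x y := dist_nonneg
  have h1 := h.dbl y s (dist x y + t) hs (by linarith) hok
  have h2 : (dist x y + t) / s = q := by rw [← hq]; field_simp
  rw [h2] at h1
  refine le_trans ?_ h1
  exact measureReal_mono (ball_subset_ball' (by linarith [dist_comm x y])) (h.ball_lt y _).ne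

/-- two points -/
theorem Dat.two_pt (h : Dat μ ρ n b A Cd ok) {u : X → ℝ} (hu : PL ρ u) {x y : X} {r : ℝ}
    (hr : 0 < r) (hok : ok (24 * r)) (hxy : dist x y ≤ r) :
    |u x - u y| ≤ 2 * Cd ^ 3 * 24 ^ n * 3 ^ n * (pot μ ρ x (12 * r) + pot μ ρ y (12 * r)) := by
  have hCd : 0 < Cd := zero_lt_one.trans_le h.cd
  have h1 := h.uav_center hu x hr (h.okm _ _ hok (by linarith))
  have h2 := h.uav_center hu y hr (h.okm _ _ hok (by linarith))
  have h3 := h.uav_pot hu (x := x) (x₁ := x) (x₂ := y) (r := 2 * r) (r₁ := r) (r₂ := r)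
    (c₁ := Cd * 24 ^ n) (c₂ := Cd * 3 ^ n) (by linarith) hr hr (h.okm _ _ hok (by linarith))
    (ball_subset_ball (by linarith)) (ball_subset_ball' (by linarith [dist_comm x y]))
    (by
      have := h.dbl x r (12 * (2 * r)) hr (by linarith) (by rwa [show 12 * (2 * r) = 24 * r by ring])
      rwa [show 12 * (2 * r) / r = 24 by field_simp; norm_num] at this)
    (by
      have k1 := h.dbl y r (3 * r) hr (by linarith) (h.okm _ _ hok (by linarith))
      rw [show 3 * r / r = 3 by field_simp] at k1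
      refine le_trans ?_ k1
      exact measureReal_mono (ball_subset_ball' (by linarith)) (h.ball_lt y _).ne)
  have p1 : pot μ ρ x (6 * r) ≤ pot μ ρ x (12 * r) := h.pot_mono x (by linarith) (by linarith)
  have p2 : pot μ ρ y (6 * r) ≤ pot μ ρ y (12 * r) := h.pot_mono y (by linarith) (by linarith)
  have p3 := h.pot_nonneg x (3 * (2 * r))
  have p0 := h.pot_nonneg x (12 * r)
  have p0' := h.pot_nonneg y (12 * r)
  have p4 : pot μ ρ x (6 * (2 * r)) - pot μ ρ x (3 * (2 * r)) ≤ pot μ ρ x (12 * r) := by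
    rw [show 6 * (2 * r) = 12 * r by ring]
    linarith
  have c1 : Cd ^ 2 * 24 ^ n ≤ Cd ^ 3 * 24 ^ n * 3 ^ n := by
    have : (1 : ℝ) ≤ Cd * 3 ^ n := one_le_mul_of_one_le_of_one_le h.cd (one_le_pow₀ (by norm_num))
    calc Cd ^ 2 * 24 ^ n = Cd ^ 2 * 24 ^ n * 1 := by ring
      _ ≤ Cd ^ 2 * 24 ^ n * (Cd * 3 ^ n) := by gcongr
      _ = _ := by ring
  calc |u x - u y| = |(u x - uav μ u x r) + (uav μ u x r - uav μ u y r) +
        (uav μ u y r - u y)| := by congr 1; ring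
    _ ≤ |u x - uav μ u x r| + |uav μ u x r - uav μ u y r| + |uav μ u y r - u y| :=
        abs_add_three _ _ _
    _ ≤ Cd ^ 2 * 24 ^ n * pot μ ρ x (6 * r) + Cd * (Cd * 24 ^ n) * (Cd * 3 ^ n) *
          (pot μ ρ x (6 * (2 * r)) - pot μ ρ x (3 * (2 * r))) +
          Cd ^ 2 * 24 ^ n * pot μ ρ y (6 * r) := by
        rw [abs_sub_comm (uav μ u y r)]
        exact add_le_add (add_le_add h1 h3) h2
    _ ≤ (Cd ^ 3 * 24 ^ n * 3 ^ n) * pot μ ρ x (12 * r) + Cd * (Cd * 24 ^ n) * (Cd * 3 ^ n) *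
          pot μ ρ x (12 * r) + (Cd ^ 3 * 24 ^ n * 3 ^ n) * pot μ ρ y (12 * r) := by
        have q1 : 0 ≤ pot μ ρ x (6 * r) := h.pot_nonneg x (6 * r)
        have q2 : 0 ≤ pot μ ρ y (6 * r) := h.pot_nonneg y (6 * r)
        have q3 : 0 ≤ Cd ^ 3 * 24 ^ n * 3 ^ n := by positivity
        have q4 : 0 ≤ Cd * (Cd * 24 ^ n) * (Cd * 3 ^ n) := by positivity
        exact add_le_add (add_le_add (mul_le_mul c1 p1 q1 q3) (mul_le_mul_of_nonneg_left p4 q4))
          (mul_le_mul c1 p2 q2 q3)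
    _ ≤ _ := by
        have : 0 ≤ Cd ^ 3 * 24 ^ n * 3 ^ n * pot μ ρ y (12 * r) := by positivity
        nlinarith

/-- neighbouring balls -/
theorem Dat.uav_nbr (h : Dat μ ρ n b A Cd ok) {u : X → ℝ} (hu : PL ρ u) {x y : X} {r : ℝ}
    (hr : 0 < r) (hok : ok (6 * r)) (hxy : dist x y ≤ r) :
    |uav μ u x r - uav μ u y r| ≤ Cd ^ 3 * 3 ^ n * 6 ^ n * A ^ (1 / b) := by
  have hb0 : 0 < b := zero_lt_one.trans h.b1
  have hCd : 0 < Cd := zero_lt_one.trans_le h.cd
  have hA := h.a0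
  have h3 := h.uav_cmp hu (x := x) (x₁ := x) (x₂ := y) (r := 2 * r) (r₁ := r) (r₂ := r)
    (by linarith) hr hr (h.okm _ _ hok (by linarith))
    (ball_subset_ball (by linarith)) (ball_subset_ball' (by linarith [dist_comm x y]))
  have m1 := h.real_pos x hr
  have m2 := h.real_pos y hr
  have m6 := h.real_pos x (show 0 < 3 * (2 * r) by linarith)
  have k1 : μ.real (ball x (2 * r)) ≤ Cd * 3 ^ n * μ.real (ball y r) := by
    have k1 := h.dbl y r (3 * r) hr (by linarith) (h.okm _ _ hok (by linarith))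
    rw [show 3 * r / r = 3 by field_simp] at k1
    refine le_trans ?_ k1
    exact measureReal_mono (ball_subset_ball' (by linarith)) (h.ball_lt y _).ne
  have k2 : μ.real (ball x (3 * (2 * r))) ≤ Cd * 6 ^ n * μ.real (ball x r) := by
    have := h.dbl x r (3 * (2 * r)) hr (by linarith) (by rwa [show 3 * (2 * r) = 6 * r by ring])
    rwa [show 3 * (2 * r) / r = 6 by field_simp; norm_num] at this
  have k3 : ∫ y in ball x (3 * (2 * r)), ρ y ∂μ ≤
      A ^ (1 / b) * (6 * r)⁻¹ * μ.real (ball x (3 * (2 * r))) := by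
    refine (h.holder x _).trans ?_
    have e0 := h.en x (3 * (2 * r)) (by linarith) (by rwa [show 3 * (2 * r) = 6 * r by ring])
    have e1 : (∫ y in ball x (3 * (2 * r)), ρ y ^ b ∂μ) ^ (1 / b) ≤
        (A * (3 * (2 * r)) ^ (-b) * μ.real (ball x (3 * (2 * r)))) ^ (1 / b) := by
      apply Real.rpow_le_rpow _ e0 (by positivity)
      exact integral_nonneg fun y => (Real.rpow_pos_of_pos (h.rp y) b).le
    have e2 : (A * (3 * (2 * r)) ^ (-b) * μ.real (ball x (3 * (2 * r)))) ^ (1 / b) =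
        A ^ (1 / b) * (6 * r)⁻¹ * μ.real (ball x (3 * (2 * r))) ^ (1 / b) := by
      rw [Real.mul_rpow (by positivity) m6.le, Real.mul_rpow hA.le (by positivity),
        ← Real.rpow_mul (by positivity)]
      congr 2
      rw [show -b * (1 / b) = -1 by field_simp, Real.rpow_neg_one,
        show 3 * (2 * r) = 6 * r by ring]
    rw [e2] at e1
    calc _ ≤ (A ^ (1 / b) * (6 * r)⁻¹ * μ.real (ball x (3 * (2 * r))) ^ (1 / b)) *
          μ.real (ball x (3 * (2 * r))) ^ (1 - 1 / b) := by gcongr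
      _ = A ^ (1 / b) * (6 * r)⁻¹ * (μ.real (ball x (3 * (2 * r))) ^ (1 / b) *
          μ.real (ball x (3 * (2 * r))) ^ (1 - 1 / b)) := by ring
      _ = _ := by
          rw [← Real.rpow_add m6, show 1 / b + (1 - 1 / b) = 1 by ring, Real.rpow_one]
  refine h3.trans ?_
  rw [div_le_iff₀ (mul_pos m1 m2)]
  calc Cd * (2 * r) * μ.real (ball x (2 * r)) * (∫ y in ball x (3 * (2 * r)), ρ y ∂μ)
      ≤ Cd * (2 * r) * (Cd * 3 ^ n * μ.real (ball y r)) *
        (A ^ (1 / b) * (6 * r)⁻¹ * (Cd * 6 ^ n * μ.real (ball x r))) := by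
        have : 0 ≤ ∫ y in ball x (3 * (2 * r)), ρ y ∂μ := integral_nonneg fun y => (h.rp y).le
        gcongr
        exact k3.trans (by gcongr)
    _ = 1 / 3 * (Cd ^ 3 * 3 ^ n * 6 ^ n * A ^ (1 / b) * (μ.real (ball x r) * μ.real (ball y r))) := by
        field_simp
        ring
    _ ≤ _ := by
        have : 0 ≤ Cd ^ 3 * 3 ^ n * 6 ^ n * A ^ (1 / b) * (μ.real (ball x r) * μ.real (ball y r)) := by
          positivity
        linarith

/-- chains -/
theorem Dat.uav_chain (h : Dat μ ρ n b A Cd ok) {u : X → ℝ} (hu : PL ρ u) {r : ℝ}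
    (hr : 0 < r) (hok : ok (6 * r)) (N : ℕ) : ∀ x y : X, dist x y ≤ N * r →
    |uav μ u x r - uav μ u y r| ≤ N * (Cd ^ 3 * 3 ^ n * 6 ^ n * A ^ (1 / b)) := by
  induction N with
  | zero =>
    intro x y hxy
    have : x = y := dist_le_zero.1 (by simpa using hxy)
    subst this
    simp
  | succ N ih =>
    intro x y hxy
    have hN : (0 : ℝ) < N + 1 := by positivity
    obtain ⟨z, hz1, hz2⟩ := h.geo x y (1 / ((N : ℝ) + 1)) ⟨by positivity, by
      rw [div_le_one hN]; linarith [(Nat.cast_nonneg N : (0 : ℝ) ≤ N)]⟩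
    push_cast at hxy
    have h1 : dist x z ≤ r := by
      rw [hz1, one_div, inv_mul_le_iff₀ hN]; exact hxy
    have h2 : dist z y ≤ N * r := by
      rw [hz2]
      have e : 1 - 1 / ((N : ℝ) + 1) = N / (N + 1) := by field_simp; ring
      rw [e, div_mul_eq_mul_div, div_le_iff₀ hN]
      nlinarith [(Nat.cast_nonneg N : (0 : ℝ) ≤ N)]
    have h3 := h.uav_nbr hu hr hok h1
    have h4 := ih z y h2
    push_cast
    calc |uav μ u x r - uav μ u y r| = |(uav μ u x r - uav μ u z r) +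
          (uav μ u z r - uav μ u y r)| := by congr 1; ring
      _ ≤ _ := abs_add_le _ _
      _ ≤ _ := by linarith

end Vale.Agent.P210.Cw
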