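import Vale.Agent.P210.Cw.Seg
import Vale.Agent.P210.Cw.En
import Vale.Agent.P210.Cw.Tel
import Vale.Agent.P210.R2.H53.TAll

/-!
# Riemannian manifolds as metric measure spaces
-/

open scoped Manifold ContDiff Topology Bundle ENNReal NNReal
open Set Metric Filter Bundle IsManifold MeasureTheory Manifold Asymptotics

set_option maxSynthPendingDepth 3
set_option linter.all false

noncomputable section

namespace Vale.Agent.P210.Cw

open Vale.Agent.P210.R2 Vale.Agent.P210.R2.H53 Vale.Agent.P210.R2.H999 Vale.Agent.P210.R2.H973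

theorem mcp' : Stmt.MCP := H168.mcp H912.wlc H934.cala H34.calb

theorem seg_data {E : Type} [NormedAddCommGroup E] [NormedSpace ℝ E] [FiniteDimensional ℝ E]
    [MeasurableSpace E] [BorelSpace E]
    {M : Type} [MetricSpace M] [ChartedSpace E M]
    [RiemannianBundle (fun x : M => TangentSpace 𝓘(ℝ, E) x)]
    [IsManifold 𝓘(ℝ, E) ∞ M]
    [IsContMDiffRiemannianBundle 𝓘(ℝ, E) ∞ E (fun x : M => TangentSpace 𝓘(ℝ, E) x)]
    [IsRiemannianManifold 𝓘(ℝ, E) M] [MeasurableSpace M] [BorelSpace M] [ProperSpace M]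
    {n : ℕ} (hn : 2 ≤ n) (hfin : Module.finrank ℝ E = n) {μ : Measure M} (hvol : IsVol E μ)
    {r : ℝ} (hr : 0 < r) (hRic : RicGE E M (-(1 / r ^ 2))) :
    SegD μ (2 ^ n * Real.exp 4) (2 * r) := by
  have hfr : 1 ≤ Module.finrank ℝ E := by omega
  have hgeo : ∀ x y : M, ∃ c : ℝ → M, MinGeo c 0 (dist x y) ∧ c 0 = x ∧ c (dist x y) = y := by
    intro x y
    obtain ⟨g1, g2, -⟩ := H196.geo E M
    have hconn : ConnectedSpace M := by
      have : PathConnectedSpace M := ⟨⟨x⟩, fun x y => pathConnected_of_riemannian (E := E) x y⟩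
      infer_instance
    obtain ⟨-, h1⟩ := g1 inferInstance hconn
    exact h1 x y
  refine ⟨hgeo, fun x => ?_, fun x l hl A hA hAR => ?_⟩
  · obtain ⟨g1, g2, -⟩ := H196.geo E M
    obtain ⟨A1, A2, A3, A4, A5⟩ := H934.cala E M hfr μ hvol
    obtain ⟨B1, B2, B3, B4, B5, B6, B7, B8, B9, B10, B11⟩ := H34.calb E M hfr
    have hlip : LocallyLipschitz fun q : M => dist x q :=
      (LipschitzWith.dist_right x).locallyLipschitz
    obtain ⟨S, hS1, hS2, hS3⟩ := exists_measurable_superset_of_null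
      (mem_ae_iff.1 (A3 _ hlip))
    have hU : ∀ z ∈ Sᶜ, x ≠ z → MDifferentiableAt 𝓘(ℝ, E) 𝓘(ℝ, ℝ) (fun q => dist x q) z ∧
        Gam E (fun q => dist x q) (fun q => dist x q) z = 1 := by
      intro z hz hne
      have hd : MDifferentiableAt 𝓘(ℝ, E) 𝓘(ℝ, ℝ) (fun q => dist x q) z := by
        by_contra hcon
        exact hz (hS1 hcon)
      exact ⟨hd, B11 x z hne hd⟩
    obtain ⟨T, H⟩ := exists_intPts hgeo g2 x hU
    exact ⟨T, Sᶜ, H, hS2.compl, by rwa [compl_compl]⟩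
  · have hl0 : (0 : ℝ) < l := by linarith [hl.1]
    have h0 := mcp' n hn E M hfr hfin μ (1 / r ^ 2) hvol (by positivity) hRic x (2 * r) l A
      (by positivity) hl0 hl.2 hA hAR
    refine h0.trans ?_
    have h1 : l⁻¹ ^ n ≤ 2 ^ n := by
      apply pow_le_pow_left₀ (by positivity)
      rw [inv_le_comm₀ hl0 (by norm_num)]
      linarith [hl.1]
    have h2 : 1 / r ^ 2 * (2 * r) ^ 2 = 4 := by
      field_simp
      norm_num
    rw [h2]
    have h4 : 0 ≤ μ.real {w | ∃ z ∈ A, dist x w = l * dist x z ∧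
      dist w z = (1 - l) * dist x z} := measureReal_nonneg
    gcongr

/-- the doubling constant -/
def CdN (n : ℕ) : ℝ := 4 * (2 ^ n * Real.exp 4)

theorem one_le_CdN (n : ℕ) : 1 ≤ CdN n := by
  unfold CdN
  have h1 : (1 : ℝ) ≤ 2 ^ n := one_le_pow₀ (by norm_num)
  have h2 : (1 : ℝ) ≤ Real.exp 4 := Real.one_le_exp (by norm_num)
  nlinarith

theorem exp_one_le_CdN (n : ℕ) : Real.exp 1 ≤ CdN n := by
  unfold CdN
  have h1 : (1 : ℝ) ≤ 2 ^ n := one_le_pow₀ (by norm_num)
  have h2 : Real.exp 1 ≤ Real.exp 4 := Real.exp_le_exp.2 (by norm_num)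
  have h3 : 0 < Real.exp 4 := Real.exp_pos _
  nlinarith

theorem dat_of {E : Type} [NormedAddCommGroup E] [NormedSpace ℝ E] [FiniteDimensional ℝ E]
    [MeasurableSpace E] [BorelSpace E]
    {M : Type} [MetricSpace M] [ChartedSpace E M]
    [RiemannianBundle (fun x : M => TangentSpace 𝓘(ℝ, E) x)]
    [IsManifold 𝓘(ℝ, E) ∞ M]
    [IsContMDiffRiemannianBundle 𝓘(ℝ, E) ∞ E (fun x : M => TangentSpace 𝓘(ℝ, E) x)]
    [IsRiemannianManifold 𝓘(ℝ, E) M] [MeasurableSpace M] [BorelSpace M] [ProperSpace M]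
    {n : ℕ} (hn : 2 ≤ n) (hfin : Module.finrank ℝ E = n) {μ : Measure M} (hvol : IsVol E μ)
    {ok : ℝ → Prop} (hokm : ∀ r s, ok r → s ≤ r → ok s)
    (hRic : ∀ r, 0 < r → ok r → RicGE E M (-(1 / r ^ 2))) {ρ : M → ℝ} (hρ : Continuous ρ)
    (hρ0 : ∀ x, 0 < ρ x) {b A : ℝ} (hb : 1 < b) (hA : 0 < A)
    (hE : ∀ x r, 0 < r → ok r →
      ∫ y in ball x r, ρ y ^ b ∂μ ≤ A * r ^ (-b) * μ.real (ball x r)) :
    Dat μ ρ n b A (CdN n) ok := by
  have hfr : 1 ≤ Module.finrank ℝ E := by omega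
  have hc : Cal E μ := cal_of H934.cala H34.calb H34.cald hfr hvol
  haveI := hc.isFinOn
  refine ⟨hc.fin, fun x r hr => hc.pos _ isOpen_ball ⟨x, mem_ball_self hr⟩, ?_, hρ, hρ0,
    one_le_CdN n, hb, hA, hokm, ?_, ?_, hE⟩
  · intro x y t ht
    obtain ⟨g1, g2, -⟩ := H196.geo E M
    have hconn : ConnectedSpace M := by
      have : PathConnectedSpace M := ⟨⟨x⟩, fun x y => pathConnected_of_riemannian (E := E) x y⟩
      infer_instance
    obtain ⟨-, h1⟩ := g1 inferInstance hconn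
    obtain ⟨c, c1, c2, c3⟩ := h1 x y
    have hd : 0 ≤ dist x y := dist_nonneg
    have hm : t * dist x y ∈ Icc 0 (dist x y) :=
      ⟨mul_nonneg ht.1 hd, mul_le_of_le_one_left hd ht.2⟩
    have k1 := c1 0 ⟨le_rfl, hd⟩ _ hm
    have k2 := c1 _ hm (dist x y) ⟨hd, le_rfl⟩
    rw [c2, zero_sub, abs_neg, abs_of_nonneg hm.1] at k1
    rw [c3, abs_sub_comm, abs_of_nonneg (by linarith [hm.2])] at k2
    exact ⟨_, k1, by rw [k2]; ring⟩
  · intro x s t hs hst ht
    have ht0 : 0 < t := hs.trans_le hst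
    have h0 := H912.bg' n hn E M hfr hfin μ (1 / t ^ 2) hvol (by positivity) (hRic t ht0 ht) x s t
      hs hst
    refine h0.trans ?_
    have h2 : 1 / t ^ 2 * t ^ 2 = 1 := by field_simp
    rw [h2]
    have h3 : 0 ≤ μ.real (ball x s) := measureReal_nonneg
    have h4 := exp_one_le_CdN n
    calc (t / s) ^ n * Real.exp 1 * μ.real (ball x s)
        ≤ (t / s) ^ n * CdN n * μ.real (ball x s) := by gcongr
      _ = _ := by ring
  · intro u hu x r hr hok S₁ S₂ hS₁ hS₂ h₁ h₂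
    have hsd := seg_data hn hfin hvol hr (hRic r hr hok)
    exact hsd.poi hr (by positivity) hρ (fun x => (hρ0 x).le) hu hu.continuous x S₁ S₂ hS₁ hS₂ h₁ h₂

section Hold

variable {X : Type} [MetricSpace X] [ProperSpace X] [MeasurableSpace X] [BorelSpace X]

/-- Hölder for continuous functions on balls -/
theorem holder_gen {μ : Measure X} [IsFiniteMeasureOnCompacts μ] {f : X → ℝ} (hf : Continuous f)
    (hf0 : ∀ x, 0 ≤ f x) {q : ℝ} (hq : 1 ≤ q) (x : X) (r : ℝ) :
    ∫ y in ball x r, f y ∂μ ≤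
      (∫ y in ball x r, f y ^ q ∂μ) ^ (1 / q) * (μ.real (ball x r)) ^ (1 - 1 / q) := by
  have hq0 : 0 < q := zero_lt_one.trans_le hq
  have hbf : μ (ball x r) ≠ ⊤ :=
    ne_top_of_le_ne_top (isCompact_closedBall x r).measure_ne_top
      (measure_mono ball_subset_closedBall)
  have hint : ∀ g : X → ℝ, Continuous g → IntegrableOn g (ball x r) μ := fun g hg =>
    (hg.continuousOn.integrableOn_compact (isCompact_closedBall x _)).mono_set
      ball_subset_closedBall
  have h1 := lintegral_le_rpow (μ.restrict (ball x r)) hq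
    (f := fun y => ENNReal.ofReal (f y)) (hf.measurable.ennreal_ofReal.aemeasurable)
  rw [Measure.restrict_apply_univ] at h1
  have e1 : ∫⁻ y in ball x r, ENNReal.ofReal (f y) ∂μ =
      ENNReal.ofReal (∫ y in ball x r, f y ∂μ) :=
    (ofReal_integral_eq_lintegral_ofReal (hint f hf) (Eventually.of_forall hf0)).symm
  have e2 : ∫⁻ y in ball x r, ENNReal.ofReal (f y) ^ q ∂μ =
      ENNReal.ofReal (∫ y in ball x r, f y ^ q ∂μ) := by
    rw [ofReal_integral_eq_lintegral_ofReal (hint _ (hf.rpow_const fun y => Or.inr hq0.le))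
      (Eventually.of_forall fun y => Real.rpow_nonneg (hf0 y) q)]
    apply lintegral_congr
    intro y
    rw [ENNReal.ofReal_rpow_of_nonneg (hf0 y) hq0.le]
  have h0 : 0 ≤ ∫ y in ball x r, f y ^ q ∂μ :=
    integral_nonneg fun y => Real.rpow_nonneg (hf0 y) q
  have h1b : 0 ≤ 1 - 1 / q := by
    rw [sub_nonneg, div_le_one hq0]; exact hq
  have e3 : μ (ball x r) = ENNReal.ofReal (μ.real (ball x r)) :=
    (ENNReal.ofReal_toReal hbf).symm
  rw [e1, e2, e3, ENNReal.ofReal_rpow_of_nonneg h0 (by positivity),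
    ENNReal.ofReal_rpow_of_nonneg measureReal_nonneg h1b,
    ← ENNReal.ofReal_mul (by positivity)] at h1
  exact (ENNReal.ofReal_le_ofReal_iff (by positivity)).1 h1

/-- Morrey bound for smaller exponents -/
theorem morrey {μ : Measure X} [IsFiniteMeasureOnCompacts μ] {S : X → ℝ} (hS : Continuous S)
    (hS0 : ∀ x, 0 ≤ S x) {p b L : ℝ} (hb : 0 < b) (hbp : b ≤ 2 * p) (hL : 0 ≤ L) {x : X} {R : ℝ}
    (hR : 0 < R) (h : ∫ y in ball x R, S y ^ p ∂μ ≤ L * R ^ (-(2 * p)) * μ.real (ball x R)) :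
    ∫ y in ball x R, S y ^ (b / 2) ∂μ ≤
      L ^ (b / (2 * p)) * R ^ (-b) * μ.real (ball x R) := by
  have hp : 0 < p := by linarith
  have h1 := holder_gen (μ := μ) (f := fun y => S y ^ (b / 2))
    (hS.rpow_const fun y => Or.inr (by positivity)) (fun y => Real.rpow_nonneg (hS0 y) _)
    (q := 2 * p / b) (by rw [one_le_div hb]; exact hbp) x R
  have e1 : ∀ y, (S y ^ (b / 2)) ^ (2 * p / b) = S y ^ p := by
    intro y
    rw [← Real.rpow_mul (hS0 y)]
    congr 1
    field_simp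
  simp only [e1] at h1
  have e2 : 1 / (2 * p / b) = b / (2 * p) := by field_simp
  rw [e2] at h1
  refine h1.trans ?_
  have hm : 0 ≤ μ.real (ball x R) := measureReal_nonneg
  have h0 : 0 ≤ ∫ y in ball x R, S y ^ p ∂μ := integral_nonneg fun y => Real.rpow_nonneg (hS0 y) p
  rcases hm.eq_or_lt with hm0 | hm0
  · rw [← hm0] at h ⊢
    rw [mul_zero] at h
    have h2 : ∫ y in ball x R, S y ^ p ∂μ = 0 := le_antisymm h h0
    rw [h2, Real.zero_rpow (by positivity)]
    simp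
  calc (∫ y in ball x R, S y ^ p ∂μ) ^ (b / (2 * p)) * μ.real (ball x R) ^ (1 - b / (2 * p))
      ≤ (L * R ^ (-(2 * p)) * μ.real (ball x R)) ^ (b / (2 * p)) *
        μ.real (ball x R) ^ (1 - b / (2 * p)) := by gcongr
    _ = L ^ (b / (2 * p)) * R ^ (-b) * (μ.real (ball x R) ^ (b / (2 * p)) *
        μ.real (ball x R) ^ (1 - b / (2 * p))) := by
        rw [Real.mul_rpow (by positivity) hm, Real.mul_rpow hL (by positivity),
          ← Real.rpow_mul hR.le, show -(2 * p) * (b / (2 * p)) = -b by field_simp]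
        ring
    _ = _ := by
        rw [← Real.rpow_add hm0, show b / (2 * p) + (1 - b / (2 * p)) = 1 by ring, Real.rpow_one]

end Hold

section Sc

variable (E : Type) [NormedAddCommGroup E] [NormedSpace ℝ E]

/-- The scalar curvature is at most the function `S`. -/
def ScalLEf (M : Type) [MetricSpace M] [ChartedSpace E M]
    [RiemannianBundle (fun x : M => TangentSpace 𝓘(ℝ, E) x)] [IsManifold 𝓘(ℝ, E) ∞ M]
    (S : M → ℝ) : Prop :=
  ∀ e ∈ maximalAtlas 𝓘(ℝ, E) ∞ M, ∀ z ∈ e.target, ∃ Γ, IsChristoffel e z Γ ∧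
    ∀ b : Module.Basis (Fin (Module.finrank ℝ E)) ℝ E,
      (∀ i j, chartMetric e z (b i) (b j) = if i = j then 1 else 0) →
      ∑ i, ∑ j, sectNum e z Γ (b i) (b j) ≤ S (e.symm z)

end Sc

theorem scal_le {E : Type} [NormedAddCommGroup E] [NormedSpace ℝ E] [FiniteDimensional ℝ E]
    {M : Type} [MetricSpace M] [ChartedSpace E M]
    [RiemannianBundle (fun x : M => TangentSpace 𝓘(ℝ, E) x)]
    [IsManifold 𝓘(ℝ, E) ∞ M]
    [IsContMDiffRiemannianBundle 𝓘(ℝ, E) ∞ E (fun x : M => TangentSpace 𝓘(ℝ, E) x)]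
    {S S' : M → ℝ} (h : ScalGEf E M S') (h' : ScalLEf E M S) (p : M) : S' p ≤ S p := by
  set e := chartAt E p with he
  have hem : e ∈ maximalAtlas 𝓘(ℝ, E) ∞ M := chart_mem_maximalAtlas p
  have hp : p ∈ e.source := mem_chart_source E p
  have hz : e p ∈ e.target := e.map_source hp
  obtain ⟨Γ, hΓ, H⟩ := h e hem (e p) hz
  obtain ⟨Γ', hΓ', H'⟩ := h' e hem (e p) hz
  obtain ⟨b, hb⟩ := exists_onb (chartG e (e p)) (fun v w => chartG_symm e (e p) v w)
    (fun v hv => chartG_pos hem hz v hv)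
  have h1 := H b hb
  have h2 := H' b hb
  simp only [sectNum_eq hem hz hΓ] at h1
  simp only [sectNum_eq hem hz hΓ'] at h2
  rw [e.left_inv hp] at h1 h2
  exact h1.trans h2

end Vale.Agent.P210.Cw
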