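import Vale.Agent.P210.Cw.Pot
import Vale.Agent.P210.R2.H999.SegD
import Vale.Agent.P210.R2.H53.SpecR

/-!
# The Poincaré inequality from the measure contraction property
-/

open scoped ENNReal NNReal Topology
open MeasureTheory Set Metric Filter

set_option linter.all false

noncomputable section

namespace Vale.Agent.P210.Cw

open Vale.Agent.P210.R2.H53 Vale.Agent.P210.R2.H999

variable {X : Type} [MetricSpace X]

/-- a `PL` function along a minimal geodesic -/
theorem PL.geo {ρ u : X → ℝ} (hu : PL ρ u) (hρ : Continuous ρ) {c : ℝ → X} {d : ℝ}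
    (hc : MinGeo c 0 d) {s t : ℝ} (hs : 0 ≤ s) (hst : s ≤ t) (ht : t ≤ d) :
    |u (c t) - u (c s)| ≤ ∫ τ in s..t, ρ (c τ) := by
  -- a continuous extension of the geodesic
  set c' : ℝ → X := fun τ => c (max 0 (min d τ)) with hc'
  have hd : 0 ≤ d := hs.trans (hst.trans ht)
  have hproj : ∀ τ, max 0 (min d τ) ∈ Icc 0 d := fun τ =>
    ⟨le_max_left _ _, max_le hd (min_le_left _ _)⟩
  have hpe : ∀ τ ∈ Icc 0 d, max 0 (min d τ) = τ := by
    intro τ hτ
    rw [min_eq_right hτ.2, max_eq_right hτ.1]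
  have hdist : ∀ τ τ', dist (c' τ) (c' τ') ≤ |τ - τ'| := by
    intro τ τ'
    rw [hc']
    simp only
    rw [hc _ (hproj τ) _ (hproj τ')]
    have a1 := abs_max_sub_max_le_max (0 : ℝ) (min d τ) 0 (min d τ')
    have a2 := abs_min_sub_min_le_max d τ d τ'
    rw [sub_self, abs_zero, max_eq_right (abs_nonneg (min d τ - min d τ'))] at a1
    rw [sub_self, abs_zero, max_eq_right (abs_nonneg (τ - τ'))] at a2
    exact a1.trans a2
  have hc'c : Continuous c' := by
    have : LipschitzWith 1 c' := LipschitzWith.of_dist_le_mul fun τ τ' => by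
      rw [Real.dist_eq]
      simpa using hdist τ τ'
    exact this.continuous
  have hρc : Continuous fun τ => ρ (c' τ) := hρ.comp hc'c
  have hint : ∫ τ in s..t, ρ (c τ) = ∫ τ in s..t, ρ (c' τ) := by
    apply intervalIntegral.integral_congr
    intro τ hτ
    rw [uIcc_of_le hst] at hτ
    simp only [hc']
    rw [hpe τ ⟨hs.trans hτ.1, hτ.2.trans ht⟩]
  have hend : ∀ τ ∈ Icc 0 d, c τ = c' τ := by
    intro τ hτ
    simp only [hc']
    rw [hpe τ hτ]
  rw [hint, hend t ⟨hs.trans hst, ht⟩, hend s ⟨hs, hst.trans ht⟩]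
  have huc : Continuous fun τ => u (c' τ) := by
    have h1 : Continuous u := by
      rw [continuous_iff_continuousAt]
      intro z
      rw [ContinuousAt, tendsto_iff_dist_tendsto_zero]
      have h1 := hu z 1 one_pos
      have h2 : Tendsto (fun y => (ρ z + 1) * dist y z) (𝓝 z) (𝓝 0) := by
        have : ContinuousAt (fun y => (ρ z + 1) * dist y z) z := by fun_prop
        simpa [ContinuousAt] using this
      exact squeeze_zero' (Eventually.of_forall fun _ => dist_nonneg) h1 h2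
    exact h1.comp hc'c
  set B : ℝ → ℝ := fun x => ∫ τ in s..x, ρ (c' τ) with hB
  have hBd : ∀ x, HasDerivAt B (ρ (c' x)) x := fun x =>
    intervalIntegral.integral_hasDerivAt_right (hρc.intervalIntegrable _ _)
      (hρc.stronglyMeasurableAtFilter _ _) hρc.continuousAt
  have hslope : ∀ (f : ℝ → ℝ), (∀ x y, |f y - f x| = |u (c' y) - u (c' x)|) →
      ∀ x ∈ Ico s t, ∀ r, ρ (c' x) < r → ∃ᶠ z in 𝓝[>] x, slope f x z < r := by
    intro f hf x hx r hr
    have h1 := hu (c' x) ((r - ρ (c' x)) / 2) (by linarith)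
    have h2 : ∀ᶠ z in 𝓝[>] x, |u (c' z) - u (c' x)| ≤ (ρ (c' x) + (r - ρ (c' x)) / 2) *
        dist (c' z) (c' x) := by
      have h3 : Tendsto c' (𝓝[>] x) (𝓝 (c' x)) := (hc'c.tendsto x).mono_left nhdsWithin_le_nhds
      exact h3.eventually h1
    apply Eventually.frequently
    filter_upwards [h2, self_mem_nhdsWithin] with z hz hz'
    have hz0 : 0 < z - x := sub_pos.2 hz'
    rw [slope_def_field, div_lt_iff₀ hz0]
    have h4 : f z - f x ≤ |u (c' z) - u (c' x)| := (le_abs_self _).trans (hf x z).le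
    have h5 := hdist z x
    rw [abs_of_pos hz0] at h5
    by_cases hneg : ρ (c' x) + (r - ρ (c' x)) / 2 < 0
    · have h6 : |u (c' z) - u (c' x)| ≤ 0 := hz.trans
        (mul_nonpos_of_nonpos_of_nonneg hneg.le dist_nonneg)
      have h7 : |u (c' z) - u (c' x)| = 0 := le_antisymm h6 (abs_nonneg _)
      have h8 : 0 < dist (c' z) (c' x) ∨ dist (c' z) (c' x) = 0 := by
        rcases (dist_nonneg (x := c' z) (y := c' x)).lt_or_eq with h | h
        · exact Or.inl h
        · exact Or.inr h.symm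
      rcases h8 with h8 | h8
      · exfalso
        have := mul_neg_of_neg_of_pos hneg h8
        linarith [abs_nonneg (u (c' z) - u (c' x))]
      · -- the curve is injective on `[0, d]`
        exfalso
        have hz1 : x ∈ Icc 0 d := ⟨hs.trans hx.1, hx.2.le.trans ht⟩
        by_cases hzd : z ≤ d
        · have hz2 : z ∈ Icc 0 d := ⟨hz1.1.trans hz'.le, hzd⟩
          rw [← hend z hz2, ← hend x hz1, hc z hz2 x hz1, abs_of_pos hz0] at h8
          linarith
        · rw [not_le] at hzd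
          have e1 : c' z = c d := by
            simp only [hc']
            rw [min_eq_left hzd.le, max_eq_right hd]
          rw [e1, ← hend x hz1, hc d ⟨hd, le_rfl⟩ x hz1, abs_eq_zero] at h8
          linarith [hx.2]
    · rw [not_lt] at hneg
      have h6 : (ρ (c' x) + (r - ρ (c' x)) / 2) * dist (c' z) (c' x) ≤
          (ρ (c' x) + (r - ρ (c' x)) / 2) * (z - x) := by gcongr
      have h7 : (ρ (c' x) + (r - ρ (c' x)) / 2) * (z - x) < r * (z - x) := by
        apply mul_lt_mul_of_pos_right _ hz0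
        linarith
      linarith
  rw [abs_le]
  have hB0 : B s = 0 := by simp [hB]
  constructor
  · have k1 := image_le_of_liminf_slope_right_le_deriv_boundary
      (f := fun x => -(u (c' x) - u (c' s))) (B := B) (B' := fun x => ρ (c' x)) (a := s) (b := t)
      (huc.sub continuous_const).neg.continuousOn (by simp [hB0])
      (continuous_iff_continuousAt.2 fun x => (hBd x).continuousAt).continuousOn
      (fun x _ => (hBd x).hasDerivWithinAt)
      (hslope _ (by
        intro x y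
        rw [← abs_neg]
        congr 1
        ring)) (right_mem_Icc.2 hst)
    simp only [hB] at k1
    linarith
  · have k1 := image_le_of_liminf_slope_right_le_deriv_boundary
      (f := fun x => (u (c' x) - u (c' s))) (B := B) (B' := fun x => ρ (c' x)) (a := s) (b := t)
      (huc.sub continuous_const).continuousOn (by simp [hB0])
      (continuous_iff_continuousAt.2 fun x => (hBd x).continuousAt).continuousOn
      (fun x _ => (hBd x).hasDerivWithinAt)
      (hslope _ (by
        intro x y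
        congr 1
        ring)) (right_mem_Icc.2 hst)
    simp only [hB] at k1
    linarith

/-- the set of midpoints -/
def Mid (y z : X) : Set X := {m | dist y m = 1 / 2 * dist y z ∧ dist m z = 1 / 2 * dist y z}

/-- the largest jump from a midpoint -/
def jmp (u : X → ℝ) (q : X × X) : ℝ := sSup ((fun m => |u m - u q.2|) '' Mid q.1 q.2)

variable [ProperSpace X]

theorem isCompact_Mid (y z : X) : IsCompact (Mid y z) := by
  apply (isCompact_closedBall y (1 / 2 * dist y z)).of_isClosed_subset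
  · apply IsClosed.inter
    · exact isClosed_eq (by fun_prop) (by fun_prop)
    · exact isClosed_eq (by fun_prop) (by fun_prop)
  · intro m hm
    rw [mem_closedBall, dist_comm]
    exact hm.1.le

theorem bdd_jmp {u : X → ℝ} (hu : Continuous u) (q : X × X) :
    BddAbove ((fun m => |u m - u q.2|) '' Mid q.1 q.2) := by
  apply (isCompact_Mid q.1 q.2).bddAbove_image
  fun_prop

theorem jmp_ge {u : X → ℝ} (hu : Continuous u) (q : X × X) {m : X} (hm : m ∈ Mid q.1 q.2) :
    |u m - u q.2| ≤ jmp u q := le_csSup (bdd_jmp hu q) ⟨m, hm, rfl⟩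

theorem jmp_le_iff {u : X → ℝ} (hu : Continuous u) (hne : ∀ y z : X, (Mid y z).Nonempty)
    (q : X × X) (a : ℝ) : a ≤ jmp u q ↔ ∃ m ∈ Mid q.1 q.2, a ≤ |u m - u q.2| := by
  constructor
  · intro h
    obtain ⟨m, hm, hmax⟩ := (isCompact_Mid q.1 q.2).exists_isMaxOn (hne q.1 q.2)
      (f := fun m => |u m - u q.2|) (by fun_prop)
    refine ⟨m, hm, h.trans ?_⟩
    apply csSup_le ((hne q.1 q.2).image _)
    rintro _ ⟨m', hm', rfl⟩
    exact hmax hm'
  · rintro ⟨m, hm, h⟩
    exact h.trans (jmp_ge hu q hm)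

theorem measurable_jmp [MeasurableSpace X] [BorelSpace X] {u : X → ℝ} (hu : Continuous u)
    (hne : ∀ y z : X, (Mid y z).Nonempty) : Measurable (jmp u) := by
  apply measurable_of_Ici
  intro a
  apply IsClosed.measurableSet
  apply IsSeqClosed.isClosed
  intro q q₀ hq hlim
  have h1 : ∀ i, ∃ m ∈ Mid (q i).1 (q i).2, a ≤ |u m - u (q i).2| := fun i =>
    (jmp_le_iff hu hne (q i) a).1 (hq i)
  choose m hm ha using h1
  have hl1 : Tendsto (fun i => (q i).1) atTop (𝓝 q₀.1) := (continuous_fst.tendsto _).comp hlim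
  have hl2 : Tendsto (fun i => (q i).2) atTop (𝓝 q₀.2) := (continuous_snd.tendsto _).comp hlim
  -- the midpoints are bounded
  have hb1 : ∀ᶠ i in atTop, m i ∈ closedBall q₀.1 (1 + (dist q₀.1 q₀.2 + 1)) := by
    have e1 : ∀ᶠ i in atTop, dist (q i).1 q₀.1 < 1 :=
      (tendsto_iff_dist_tendsto_zero.1 hl1).eventually_lt_const one_pos
    have e2 : Tendsto (fun i => dist (q i).1 (q i).2) atTop (𝓝 (dist q₀.1 q₀.2)) := hl1.dist hl2
    have e3 : ∀ᶠ i in atTop, dist (q i).1 (q i).2 < dist q₀.1 q₀.2 + 1 :=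
      e2.eventually_lt_const (by linarith)
    filter_upwards [e1, e3] with i h1 h2
    rw [mem_closedBall]
    have h3 := (hm i).1
    have h4 := dist_triangle (m i) (q i).1 q₀.1
    rw [dist_comm (m i) (q i).1] at h4
    have h5 : 0 ≤ dist (q i).1 (q i).2 := dist_nonneg
    linarith
  obtain ⟨m₀, -, φ, hφ, hφl⟩ := (isCompact_closedBall q₀.1 (1 + (dist q₀.1 q₀.2 + 1))).tendsto_subseq'
    hb1.frequently
  have hl1' := hl1.comp hφ.tendsto_atTop
  have hl2' := hl2.comp hφ.tendsto_atTop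
  show a ≤ jmp u q₀
  rw [jmp_le_iff hu hne]
  refine ⟨m₀, ⟨?_, ?_⟩, ?_⟩
  · refine tendsto_nhds_unique (hl1'.dist hφl) ?_
    have : Tendsto (fun i => 1 / 2 * dist ((q (φ i)).1) ((q (φ i)).2)) atTop
        (𝓝 (1 / 2 * dist q₀.1 q₀.2)) := (hl1'.dist hl2').const_mul _
    refine this.congr fun i => ?_
    exact ((hm (φ i)).1).symm
  · refine tendsto_nhds_unique (hφl.dist hl2') ?_
    have : Tendsto (fun i => 1 / 2 * dist ((q (φ i)).1) ((q (φ i)).2)) atTop
        (𝓝 (1 / 2 * dist q₀.1 q₀.2)) := (hl1'.dist hl2').const_mul _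
    refine this.congr fun i => ?_
    exact ((hm (φ i)).2).symm
  · have h3 : Tendsto (fun i => |u (m (φ i)) - u (q (φ i)).2|) atTop (𝓝 |u m₀ - u q₀.2|) :=
      (((hu.tendsto _).comp hφl).sub ((hu.tendsto _).comp hl2')).abs
    exact ge_of_tendsto' h3 fun i => ha (φ i)

variable [MeasurableSpace X] [BorelSpace X]

/-- the data needed for the Poincaré inequality: segments with measure contraction -/
structure SegD (μ : Measure X) (C R : ℝ) : Prop where
  geo : ∀ x y : X, ∃ c : ℝ → X, MinGeo c 0 (dist x y) ∧ c 0 = x ∧ c (dist x y) = y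
  pts : ∀ x : X, ∃ (T : ℝ → X → X) (U : Set X), IntPts x T U ∧ MeasurableSet U ∧ μ Uᶜ = 0
  mcp : ∀ (x : X), ∀ l ∈ Icc (1 / 2 : ℝ) 1, ∀ A : Set X, IsCompact A → A ⊆ closedBall x R →
    μ.real A ≤ C * μ.real {w | ∃ z ∈ A, dist x w = l * dist x z ∧ dist w z = (1 - l) * dist x z}

theorem SegD.mid {μ : Measure X} {C R : ℝ} (h : SegD μ C R) (y z : X) : (Mid y z).Nonempty := by
  obtain ⟨c, c1, c2, c3⟩ := h.geo y z
  have hd : 0 ≤ dist y z := dist_nonneg
  have hm : 1 / 2 * dist y z ∈ Icc 0 (dist y z) := ⟨by positivity, by linarith⟩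
  refine ⟨c (1 / 2 * dist y z), ?_, ?_⟩
  · have k1 := c1 0 ⟨le_rfl, hd⟩ _ hm
    rwa [c2, zero_sub, abs_neg, abs_of_nonneg hm.1] at k1
  · have k2 := c1 _ hm (dist y z) ⟨hd, le_rfl⟩
    rw [c3, abs_sub_comm, abs_of_nonneg (by linarith [hm.2])] at k2
    rw [k2]
    ring

/-- the jump for a fixed first point -/
theorem SegD.jmp_int {μ : Measure X} [IsFiniteMeasureOnCompacts μ] {C r : ℝ}
    (h : SegD μ C (2 * r)) (hr : 0 < r) (hC : 0 ≤ C) {ρ u : X → ℝ} (hρ : Continuous ρ)
    (hρ0 : ∀ x, 0 ≤ ρ x) (hu : PL ρ u) (huc : Continuous u) {x y : X} (hy : y ∈ ball x r) :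
    ∫⁻ z in ball x r, ENNReal.ofReal (jmp u (y, z)) ∂μ ≤
      ENNReal.ofReal (2 * r * C) * ∫⁻ z in ball x (3 * r), ENNReal.ofReal (ρ z) ∂μ := by
  obtain ⟨T, U, H, hU, hU0⟩ := h.pts y
  rw [mem_ball] at hy
  set P := ball x r ∩ U with hP
  have hPm : MeasurableSet P := measurableSet_ball.inter hU
  have hPR : P ⊆ closedBall y (2 * r) := by
    intro z hz
    have h1 := hz.1
    rw [mem_ball] at h1
    rw [mem_closedBall]
    have := dist_triangle_right z y x
    linarith
  have hPae : P =ᵐ[μ] ball x r := by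
    have : (U : Set X) =ᵐ[μ] (univ : Set X) := by
      rw [ae_eq_univ]; exact hU0
    have h2 := (EventuallyEq.refl (ae μ) (ball x r)).inter this
    rwa [inter_univ] at h2
  rw [← setLIntegral_congr hPae]
  have hpt : ∀ z ∈ P, ENNReal.ofReal (jmp u (y, z)) ≤
      ENNReal.ofReal (2 * r) * ∫⁻ l in Ioc (1 / 2 : ℝ) 1, ENNReal.ofReal (ρ (T l z)) := by
    intro z hz
    have hd0 : 0 ≤ dist y z := dist_nonneg
    have hd2 : dist y z ≤ 2 * r := by
      have := hPR hz
      rwa [mem_closedBall, dist_comm] at this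
    obtain ⟨c, c1, c2, c3⟩ := h.geo y z
    set d := dist y z with hdef
    have hTc : ∀ l ∈ Icc (0 : ℝ) 1, T l z = c (l * d) := by
      intro l hl
      have hm : l * d ∈ Icc 0 d := ⟨mul_nonneg hl.1 hd0, mul_le_of_le_one_left hd0 hl.2⟩
      have k1 := c1 0 ⟨le_rfl, hd0⟩ _ hm
      have k2 := c1 _ hm d ⟨hd0, le_rfl⟩
      rw [c2, zero_sub, abs_neg, abs_of_nonneg hm.1] at k1
      rw [c3, abs_sub_comm, abs_of_nonneg (by linarith [hm.2])] at k2
      exact (H.uniq l hl z hz.2 _ k1 (by rw [k2]; ring)).symm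
    have hj : jmp u (y, z) ≤ ∫ τ in (1 / 2 * d)..d, ρ (c τ) := by
      apply csSup_le ((h.mid y z).image _)
      rintro _ ⟨m, hm, rfl⟩
      have e1 : m = T (1 / 2) z := by
        apply H.uniq (1 / 2) ⟨by norm_num, by norm_num⟩ z hz.2 m hm.1
        have := hm.2
        rw [this]
        ring
      simp only
      rw [e1, hTc (1 / 2) ⟨by norm_num, by norm_num⟩, abs_sub_comm]
      have k := hu.geo hρ c1 (s := 1 / 2 * d) (t := d) (by positivity) (by linarith) le_rfl
      rwa [c3] at k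
    have hsub : ∫ τ in (1 / 2 * d)..d, ρ (c τ) = d * ∫ l in (1 / 2 : ℝ)..1, ρ (T l z) := by
      have e1 : ∫ l in (1 / 2 : ℝ)..1, ρ (T l z) = ∫ l in (1 / 2 : ℝ)..1, ρ (c (l * d)) := by
        apply intervalIntegral.integral_congr
        intro l hl
        rw [uIcc_of_le (by norm_num)] at hl
        simp only
        rw [hTc l ⟨by linarith [hl.1], hl.2⟩]
      have e2 := intervalIntegral.smul_integral_comp_mul_right (a := 1 / 2) (b := 1)
        (fun τ => ρ (c τ)) d
      rw [smul_eq_mul, one_mul] at e2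
      rw [e1, e2]
    have hcT : ContinuousOn (fun l : ℝ => ρ (T l z)) (Icc (0 : ℝ) 1) := by
      have h1 : ContinuousOn (fun l : ℝ => T l z) (Icc (0 : ℝ) 1) :=
        H.continuousOn.comp (f := fun l : ℝ => (l, z)) (by fun_prop)
          (fun l hl => ⟨hl, hz.2⟩)
      exact hρ.comp_continuousOn h1
    have hiF : IntegrableOn (fun l : ℝ => ρ (T l z)) (Ioc (1 / 2 : ℝ) 1) :=
      ((hcT.mono (Icc_subset_Icc (by norm_num) le_rfl)).integrableOn_Icc).mono_set
        Ioc_subset_Icc_self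
    have h2 : ENNReal.ofReal (∫ l in (1 / 2 : ℝ)..1, ρ (T l z)) =
        ∫⁻ l in Ioc (1 / 2 : ℝ) 1, ENNReal.ofReal (ρ (T l z)) := by
      rw [intervalIntegral.integral_of_le (by norm_num)]
      exact ofReal_integral_eq_lintegral_ofReal hiF (Eventually.of_forall fun l => hρ0 _)
    rw [← h2, ← ENNReal.ofReal_mul (by positivity)]
    apply ENNReal.ofReal_le_ofReal
    rw [hsub] at hj
    refine hj.trans ?_
    have h3 : 0 ≤ ∫ l in (1 / 2 : ℝ)..1, ρ (T l z) :=
      intervalIntegral.integral_nonneg (by norm_num) fun l _ => hρ0 _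
    gcongr
  refine (setLIntegral_mono' hPm hpt).trans ?_
  rw [lintegral_const_mul' _ _ ENNReal.ofReal_ne_top]
  have hρm : Measurable fun z => ENNReal.ofReal (ρ z) := hρ.measurable.ennreal_ofReal
  have k1 := H.lintegral_lintegral_le μ (R := 2 * r) (C := C) (lam := 1 / 2) (by norm_num) hC
    (fun l hl A hA hAR => h.mcp y l hl A hA hAR) hPm (fun z hz => hz.2) hPR hρm
  have k2 : closedBall y (2 * r) ⊆ ball x (3 * r) := by
    intro z hz
    rw [mem_closedBall] at hz
    rw [mem_ball]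
    have := dist_triangle z y x
    linarith
  calc ENNReal.ofReal (2 * r) *
        ∫⁻ z in P, (∫⁻ l in Ioc (1 / 2 : ℝ) 1, ENNReal.ofReal (ρ (T l z))) ∂μ
      ≤ ENNReal.ofReal (2 * r) * (ENNReal.ofReal C *
        ∫⁻ w in closedBall y (2 * r), ENNReal.ofReal (ρ w) ∂μ) := by gcongr
    _ ≤ ENNReal.ofReal (2 * r) * (ENNReal.ofReal C *
        ∫⁻ w in ball x (3 * r), ENNReal.ofReal (ρ w) ∂μ) := by
        gcongr ENNReal.ofReal (2 * r) * (ENNReal.ofReal C * ?_)
        exact lintegral_mono_set k2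
    _ = _ := by
        rw [← mul_assoc, ← ENNReal.ofReal_mul (by positivity)]

/-- the Poincaré inequality -/
theorem SegD.poi {μ : Measure X} [IsFiniteMeasureOnCompacts μ] {C r : ℝ}
    (h : SegD μ C (2 * r)) (hr : 0 < r) (hC : 0 ≤ C) {ρ u : X → ℝ} (hρ : Continuous ρ)
    (hρ0 : ∀ x, 0 ≤ ρ x) (hu : PL ρ u) (huc : Continuous u) (x : X) (S₁ S₂ : Set X)
    (hS₁ : MeasurableSet S₁) (hS₂ : MeasurableSet S₂) (h₁ : S₁ ⊆ ball x r) (h₂ : S₂ ⊆ ball x r) :
    |μ.real S₂ * ∫ y in S₁, u y ∂μ - μ.real S₁ * ∫ y in S₂, u y ∂μ| ≤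
      (4 * C) * r * μ.real (ball x r) * ∫ y in ball x (3 * r), ρ y ∂μ := by
  have hbf : μ (ball x r) ≠ ⊤ :=
    ne_top_of_le_ne_top (isCompact_closedBall x r).measure_ne_top
      (measure_mono ball_subset_closedBall)
  have hS₁f : μ S₁ ≠ ⊤ := ne_top_of_le_ne_top hbf (measure_mono h₁)
  have hS₂f : μ S₂ ≠ ⊤ := ne_top_of_le_ne_top hbf (measure_mono h₂)
  have hui : IntegrableOn u (ball x r) μ :=
    (huc.continuousOn.integrableOn_compact (isCompact_closedBall x r)).mono_set
      ball_subset_closedBall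
  have hu1 := hui.mono_set h₁
  have hu2 := hui.mono_set h₂
  have hjm := measurable_jmp huc h.mid
  have hofj : Measurable fun q : X × X => ENNReal.ofReal (jmp u q) := hjm.ennreal_ofReal
  have e0 : μ.real S₂ * ∫ y in S₁, u y ∂μ - μ.real S₁ * ∫ y in S₂, u y ∂μ =
      ∫ y in S₁, (∫ z in S₂, (u y - u z) ∂μ) ∂μ := by
    have e1 : ∀ y, ∫ z in S₂, (u y - u z) ∂μ = μ.real S₂ * u y - ∫ z in S₂, u z ∂μ := by
      intro y
      have hcst : IntegrableOn (fun _ : X => u y) S₂ μ := integrableOn_const hS₂f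
      rw [integral_sub hcst hu2, setIntegral_const, smul_eq_mul]
    simp only [e1]
    have hcst : IntegrableOn (fun _ : X => ∫ z in S₂, u z ∂μ) S₁ μ := integrableOn_const hS₁f
    rw [integral_sub (hu1.const_mul _) hcst, integral_const_mul, setIntegral_const, smul_eq_mul]
  have key : ∫⁻ y in ball x r, ∫⁻ z in ball x r, ENNReal.ofReal |u y - u z| ∂μ ∂μ ≤
      ENNReal.ofReal ((4 * C) * r * μ.real (ball x r) * ∫ y in ball x (3 * r), ρ y ∂μ) := by
    have a1 : ∫⁻ y in ball x r, ∫⁻ z in ball x r, ENNReal.ofReal |u y - u z| ∂μ ∂μ ≤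
        ∫⁻ y in ball x r, ∫⁻ z in ball x r, (ENNReal.ofReal (jmp u (z, y)) +
          ENNReal.ofReal (jmp u (y, z))) ∂μ ∂μ := by
      apply lintegral_mono
      intro y
      apply lintegral_mono
      intro z
      simp only
      have hj0 : ∀ q : X × X, 0 ≤ jmp u q := by
        intro q
        obtain ⟨m, hm⟩ := h.mid q.1 q.2
        exact (abs_nonneg _).trans (jmp_ge huc q hm)
      rw [← ENNReal.ofReal_add (hj0 _) (hj0 _)]
      apply ENNReal.ofReal_le_ofReal
      obtain ⟨m, hm⟩ := h.mid y z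
      have hm' : m ∈ Mid z y := by
        refine ⟨?_, ?_⟩
        · rw [dist_comm z m, dist_comm z y]; exact hm.2
        · rw [dist_comm m y, dist_comm z y]; exact hm.1
      have k1 := jmp_ge huc (y, z) hm
      have k2 := jmp_ge huc (z, y) hm'
      simp only at k1 k2
      calc |u y - u z| = |-(u m - u y) + (u m - u z)| := by congr 1; ring
        _ ≤ |-(u m - u y)| + |u m - u z| := abs_add_le _ _
        _ ≤ _ := by rw [abs_neg]; exact add_le_add k2 k1
    have a2 : ∀ y ∈ ball x r, ∫⁻ z in ball x r, ENNReal.ofReal (jmp u (y, z)) ∂μ ≤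
        ENNReal.ofReal (2 * r * C) * ∫⁻ z in ball x (3 * r), ENNReal.ofReal (ρ z) ∂μ :=
      fun y hy => h.jmp_int hr hC hρ hρ0 hu huc hy
    have hmy : ∀ y, Measurable fun z => ENNReal.ofReal (jmp u (z, y)) := fun y =>
      hofj.comp (measurable_id.prodMk measurable_const)
    have a3 : ∫⁻ y in ball x r, ∫⁻ z in ball x r, (ENNReal.ofReal (jmp u (z, y)) +
          ENNReal.ofReal (jmp u (y, z))) ∂μ ∂μ =
        2 * ∫⁻ y in ball x r, ∫⁻ z in ball x r, ENNReal.ofReal (jmp u (y, z)) ∂μ ∂μ := by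
      have e1 : ∀ y, ∫⁻ z in ball x r, (ENNReal.ofReal (jmp u (z, y)) +
          ENNReal.ofReal (jmp u (y, z))) ∂μ = ∫⁻ z in ball x r, ENNReal.ofReal (jmp u (z, y)) ∂μ +
          ∫⁻ z in ball x r, ENNReal.ofReal (jmp u (y, z)) ∂μ := fun y =>
        lintegral_add_left (hmy y) _
      simp only [e1]
      have hm1 : Measurable fun y => ∫⁻ z in ball x r, ENNReal.ofReal (jmp u (z, y)) ∂μ :=
        Measurable.lintegral_prod_right' (f := fun q : X × X => ENNReal.ofReal (jmp u (q.2, q.1)))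
          (hofj.comp measurable_swap)
      rw [lintegral_add_left hm1, two_mul]
      congr 1
      rw [lintegral_lintegral_swap]
      exact (hofj.comp measurable_swap).aemeasurable
    have e3 : ∫⁻ z in ball x (3 * r), ENNReal.ofReal (ρ z) ∂μ =
        ENNReal.ofReal (∫ z in ball x (3 * r), ρ z ∂μ) :=
      (ofReal_integral_eq_lintegral_ofReal
        ((hρ.continuousOn.integrableOn_compact (isCompact_closedBall x _)).mono_set
          ball_subset_closedBall) (Eventually.of_forall fun z => hρ0 z)).symm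
    have hI0 : 0 ≤ ∫ z in ball x (3 * r), ρ z ∂μ := integral_nonneg hρ0
    calc _ ≤ 2 * ∫⁻ y in ball x r, ∫⁻ z in ball x r, ENNReal.ofReal (jmp u (y, z)) ∂μ ∂μ :=
          a1.trans a3.le
      _ ≤ 2 * ∫⁻ y in ball x r, (ENNReal.ofReal (2 * r * C) *
            ∫⁻ z in ball x (3 * r), ENNReal.ofReal (ρ z) ∂μ) ∂μ := by
          gcongr 2 * ?_
          exact setLIntegral_mono' measurableSet_ball a2
      _ = 2 * ((ENNReal.ofReal (2 * r * C) *
            ENNReal.ofReal (∫ z in ball x (3 * r), ρ z ∂μ)) * μ (ball x r)) := by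
          rw [setLIntegral_const, e3]
      _ = _ := by
          rw [show (2 : ℝ≥0∞) = ENNReal.ofReal 2 by simp,
            show μ (ball x r) = ENNReal.ofReal (μ.real (ball x r)) from
              (ENNReal.ofReal_toReal hbf).symm,
            ← ENNReal.ofReal_mul (by positivity), ← ENNReal.ofReal_mul (by positivity),
            ← ENNReal.ofReal_mul (by positivity)]
          congr 1
          ring
  rw [e0]
  have hRHS : 0 ≤ (4 * C) * r * μ.real (ball x r) * ∫ y in ball x (3 * r), ρ y ∂μ := by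
    have : 0 ≤ ∫ z in ball x (3 * r), ρ z ∂μ := integral_nonneg hρ0
    positivity
  have k1 : ‖∫ y in S₁, (∫ z in S₂, (u y - u z) ∂μ) ∂μ‖ₑ ≤
      ∫⁻ y in S₁, ∫⁻ z in S₂, ‖u y - u z‖ₑ ∂μ ∂μ :=
    (enorm_integral_le_lintegral_enorm _).trans
      (lintegral_mono fun y => enorm_integral_le_lintegral_enorm _)
  have k2 : ∫⁻ y in S₁, ∫⁻ z in S₂, ‖u y - u z‖ₑ ∂μ ∂μ ≤
      ∫⁻ y in ball x r, ∫⁻ z in ball x r, ENNReal.ofReal |u y - u z| ∂μ ∂μ := by
    refine (lintegral_mono_set h₁).trans (lintegral_mono fun y => ?_)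
    refine (lintegral_mono_set h₂).trans (lintegral_mono fun z => ?_)
    rw [Real.enorm_eq_ofReal_abs]
  have k3 := (k1.trans k2).trans key
  rw [Real.enorm_eq_ofReal_abs] at k3
  exact (ENNReal.ofReal_le_ofReal_iff hRHS).1 k3

end Vale.Agent.P210.Cw
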