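import Vale.Agent.P210.Cw.Gen

/-!
# Selection of generic shifts
-/

open scoped ENNReal NNReal Topology
open MeasureTheory Set Metric Filter

set_option linter.all false

noncomputable section

namespace Vale.Agent.P210.Cw

variable {X : Type} [MetricSpace X] [ProperSpace X] [MeasurableSpace X] [BorelSpace X]
variable {okl : ℤ → Prop}
variable {μ : Measure X} {ρ : X → ℝ} {n : ℕ} {b A Cd : ℝ} {ok : ℝ → Prop}

/-- the energy functional of a configuration -/
def Psi {k : ℕ} (μ : Measure X) (W : X → ℝ≥0∞) (b η : ℝ) (D : Set X) (V : Vs X okl)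
    (P B : Fin k → V.ι) (c : V.ι → ℝ) : ℝ≥0∞ :=
  ∫⁻ y in D, W y ^ b * pk η P B (fun i => V.hat (P i) y - V.hat (B i) y) Finset.univ c ∂μ

theorem measurable_Psi_aux {k : ℕ} {W : X → ℝ≥0∞} (hW : Measurable W) (b η : ℝ) (V : Vs X okl)
    (P B : Fin k → V.ι) :
    Measurable (fun q : (V.ι → ℝ) × X =>
      W q.2 ^ b * pk η P B (fun i => V.hat (P i) q.2 - V.hat (B i) q.2) Finset.univ q.1) := by
  apply Measurable.mul
  · exact (hW.comp measurable_snd).pow_const b
  · unfold pk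
    apply Finset.measurable_fun_prod
    intro i _
    refine (measurable_sk η).comp ?_
    have h1 := (V.continuous_hat (P i)).measurable
    have h2 := (V.continuous_hat (B i)).measurable
    fun_prop

theorem measurable_Psi {k : ℕ} [SFinite μ] {W : X → ℝ≥0∞} (hW : Measurable W) (b η : ℝ) (D : Set X)
    (V : Vs X okl) (P B : Fin k → V.ι) : Measurable (Psi μ W b η D V P B) := by
  unfold Psi
  exact Measurable.lintegral_prod_right' (measurable_Psi_aux hW b η V P B)

theorem lmarginal_Psi_le {k : ℕ} [SFinite μ] {W : X → ℝ≥0∞} (hW : Measurable W) {b η : ℝ}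
    (hη : 0 < η) (hη1 : η < 1) (D : Set X) (V : Vs X okl) [DecidableEq V.ι] (P B : Fin k → V.ι)
    (hP : Function.Injective P) (hB : ∀ i l, B i ≠ P l)
    (S : Finset V.ι) (hV : Finset.univ.image P ⊆ S) (c : V.ι → ℝ) :
    (∫⋯∫⁻_S, Psi μ W b η D V P B ∂(fun _ => um)) c ≤
      ENNReal.ofReal (8 / η + 1) ^ k * ∫⁻ y in D, W y ^ b ∂μ := by
  unfold lmarginal
  simp only [Psi]
  rw [lintegral_lintegral_swap]
  · calc (∫⁻ y in D, (∫⁻ z : ∀ i : S, ℝ, W y ^ b *
          pk η P B (fun i => V.hat (P i) y - V.hat (B i) y) Finset.univ (Function.updateFinset c S z)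
          ∂(Measure.pi fun _ => um)) ∂μ)
        = ∫⁻ y in D, W y ^ b * (∫⋯∫⁻_S, pk η P B (fun i => V.hat (P i) y - V.hat (B i) y)
            Finset.univ ∂(fun _ => um)) c ∂μ := by
          apply lintegral_congr
          intro y
          rw [lintegral_const_mul]
          · rfl
          · exact (measurable_pk η P B _ _).comp measurable_updateFinset
      _ ≤ ∫⁻ y in D, ENNReal.ofReal (8 / η + 1) ^ k * W y ^ b ∂μ := by
          apply lintegral_mono
          intro y
          simp only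
          rw [mul_comm]
          gcongr
          exact lmarginal_pk_le' hη hη1 P B hP hB _ S hV c
      _ = ENNReal.ofReal (8 / η + 1) ^ k * ∫⁻ y in D, W y ^ b ∂μ := by
          rw [lintegral_const_mul]
          exact hW.pow_const b
  · apply Measurable.aemeasurable
    have h := measurable_Psi_aux hW b η V P B
    have h2 : Measurable (fun q : (∀ i : S, ℝ) × X => (Function.updateFinset c S q.1, q.2)) := by
      apply Measurable.prodMk
      · exact measurable_updateFinset.comp measurable_fst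
      · exact measurable_snd
    exact h.comp h2

/-- the constant of the selection -/
def M0 (n k : ℕ) (b A Cd η : ℝ) : ℝ :=
  (((2 * (nbB n Cd ^ k * nbB n Cd ^ k) : ℕ) : ℝ) + 1) ^ (2 * k) * ((8 / η + 1) ^ k * A)

theorem Dat.exists_shift (h : Dat μ ρ n b A Cd ok) (V : Vs X okl)
    (hokl : ∀ j, okl j → ok (1024 * (2 : ℝ) ^ j)) {k : ℕ} (hk : 0 < k) {η : ℝ} (hη : 0 < η)
    (hη1 : η < 1) :
    ∃ c : V.ι → ℝ, (∀ p, c p ∈ Icc (0 : ℝ) (1 / 4)) ∧ ∀ κ : Cf V k,
        Psi μ (fun y => ENNReal.ofReal (ρ y)) b η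
          (ball (V.ps (κ.P ⟨0, hk⟩)) (386 * (2 : ℝ) ^ κ.j)) V κ.P κ.B c ≤
          ENNReal.ofReal (M0 n k b A Cd η * ((386 * (2 : ℝ) ^ κ.j) ^ (-b) *
            μ.real (ball (V.ps (κ.P ⟨0, hk⟩)) (386 * (2 : ℝ) ^ κ.j)))) := by
  classical
  haveI := h.isFin
  haveI : Countable V.ι := V.cnt
  have hW : Measurable fun y => ENNReal.ofReal (ρ y) := h.rc.measurable.ennreal_ofReal
  have hA := h.a0
  set D := 2 * (nbB n Cd ^ k * nbB n Cd ^ k) with hD
  have key := greedy_selection (ι := V.ι) (𝒦 := Cf V k) um Cf.V (2 * k) D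
    (fun κ => κ.card_V) (fun p => h.cf_count V hokl k p)
    (fun κ => Psi μ (fun y => ENNReal.ofReal (ρ y)) b η
      (ball (V.ps (κ.P ⟨0, hk⟩)) (386 * (2 : ℝ) ^ κ.j)) V κ.P κ.B)
    (fun κ => measurable_Psi hW b η _ _ _ _)
    (by
      intro κ c c' h
      have hP : ∀ i, c (κ.P i) = c' (κ.P i) := fun i => h _ ((κ.mem_V _).2 ⟨i, Or.inl rfl⟩)
      have hB : ∀ i, c (κ.B i) = c' (κ.B i) := fun i => h _ ((κ.mem_V _).2 ⟨i, Or.inr rfl⟩)
      simp only [Psi, pk, hP, hB])
    (fun κ => ENNReal.ofReal (8 / η + 1) ^ k *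
      ENNReal.ofReal (A * ((386 * (2 : ℝ) ^ κ.j) ^ (-b) *
        μ.real (ball (V.ps (κ.P ⟨0, hk⟩)) (386 * (2 : ℝ) ^ κ.j)))))
    (by
      intro κ
      have h1 : 0 < ENNReal.ofReal (8 / η + 1) ^ k := by
        apply ENNReal.pow_pos
        rw [ENNReal.ofReal_pos]; positivity
      have h3 := h.real_pos (V.ps (κ.P ⟨0, hk⟩)) (show (0 : ℝ) < 386 * (2 : ℝ) ^ κ.j by positivity)
      have h2 : 0 < ENNReal.ofReal (A * ((386 * (2 : ℝ) ^ κ.j) ^ (-b) *
        μ.real (ball (V.ps (κ.P ⟨0, hk⟩)) (386 * (2 : ℝ) ^ κ.j)))) := by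
        rw [ENNReal.ofReal_pos]; positivity
      exact (ENNReal.mul_pos h1.ne' h2.ne').ne')
    (by
      intro κ
      exact ENNReal.mul_ne_top (ENNReal.pow_ne_top ENNReal.ofReal_ne_top) ENNReal.ofReal_ne_top)
    (by
      intro κ c
      refine (lmarginal_Psi_le hW hη hη1 _ V κ.P κ.B κ.inj κ.ne κ.V ?_ c).trans ?_
      · intro q hq
        rw [Finset.mem_image] at hq
        obtain ⟨i, _, rfl⟩ := hq
        exact (κ.mem_V _).2 ⟨i, Or.inl rfl⟩
      · gcongr
        have e1 := h.en (V.ps (κ.P ⟨0, hk⟩)) (386 * (2 : ℝ) ^ κ.j) (by positivity)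
          (h.okm _ _ (hokl _ κ.okj) (by
            have : (0 : ℝ) < (2 : ℝ) ^ κ.j := by positivity
            linarith))
        have e2 : ∫⁻ y in ball (V.ps (κ.P ⟨0, hk⟩)) (386 * (2 : ℝ) ^ κ.j),
            ENNReal.ofReal (ρ y) ^ b ∂μ =
            ENNReal.ofReal (∫ y in ball (V.ps (κ.P ⟨0, hk⟩)) (386 * (2 : ℝ) ^ κ.j), ρ y ^ b ∂μ) := by
          rw [ofReal_integral_eq_lintegral_ofReal (h.int_ball h.cont_pow _ _)
            (Eventually.of_forall fun y => (Real.rpow_pos_of_pos (h.rp y) b).le)]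
          apply lintegral_congr
          intro y
          rw [ENNReal.ofReal_rpow_of_pos (h.rp y)]
        rw [e2]
        apply ENNReal.ofReal_le_ofReal
        linarith)
    (Icc (0 : ℝ) (1 / 4)) um_compl
  obtain ⟨c, hc, hcκ⟩ := key
  refine ⟨c, hc, fun κ => (hcκ κ).trans (le_of_eq ?_)⟩
  have e1 : ((D : ℝ≥0∞) + 1) ^ (2 * k) = ENNReal.ofReal (((D : ℝ) + 1) ^ (2 * k)) := by
    rw [ENNReal.ofReal_pow (by positivity), ENNReal.ofReal_add (by positivity) (by norm_num)]
    simp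
  have h3 := h.real_pos (V.ps (κ.P ⟨0, hk⟩)) (show (0 : ℝ) < 386 * (2 : ℝ) ^ κ.j by positivity)
  rw [e1, ← ENNReal.ofReal_pow (by positivity), ← ENNReal.ofReal_mul (by positivity),
    ← ENNReal.ofReal_mul (by positivity)]
  congr 1
  unfold M0
  rw [← hD]
  ring

/-- the constant of the generic bound -/
def LamC (n k : ℕ) (b A Cd η : ℝ) : ℝ :=
  Cd * 2 ^ n * Cd ^ (1 / b) / (1 - ((n : ℝ) - k * (1 - η)) / b) *
    (192 * (((768 : ℝ) ^ ((k : ℝ) * (1 - η)) * (M0 n k b A Cd η) *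
      (386 : ℝ) ^ (-b) * (Cd * 3 ^ n)) ^ (1 / b)))

theorem LamC_pos {n k : ℕ} {b A Cd η : ℝ} (hb : 1 < b) (hA : 0 < A) (hCd : 1 ≤ Cd) (hη : 0 < η)
    (hη1 : (n : ℝ) - k * (1 - η) < b) : 0 < LamC n k b A Cd η := by
  have h1 : 0 < 1 - ((n : ℝ) - k * (1 - η)) / b := by
    rw [sub_pos, div_lt_one (by linarith)]; exact hη1
  have h2 : 0 < Cd := by linarith
  unfold LamC M0
  positivity

/-- generic bound of the potential -/
theorem Dat.generic (h : Dat μ ρ n b A Cd ok) (V : Vs X okl)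
    (hokl : ∀ j, okl j → ok (1024 * (2 : ℝ) ^ j)) {k : ℕ} (hk : 0 < k) {η : ℝ} (hη : 0 < η)
    (hη1 : η < 1) (hηb : (n : ℝ) - k * (1 - η) < b) :
    ∃ c : V.ι → ℝ, (∀ p, c p ∈ Icc (0 : ℝ) (1 / 4)) ∧
      ∀ (x : X) (j : ℤ) (P B : Fin k → V.ι), okl j → Function.Injective P →
        (∀ i l, B i ≠ P l) →
        (∀ q, (∃ i, q = P i ∨ q = B i) → V.lv q = j ∨ V.lv q = j - 1) →
        (∀ q, (∃ i, q = P i ∨ q = B i) → 0 < V.hat q x) →
        (∀ i, V.hat (P i) x - c (P i) = V.hat (B i) x - c (B i)) →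
        pot μ ρ x (192 * (2 : ℝ) ^ j) ≤ LamC n k b A Cd η := by
  haveI := h.isFin
  obtain ⟨c, hc, hcκ⟩ := h.exists_shift V hokl hk hη hη1
  refine ⟨c, hc, ?_⟩
  intro x j P B hj hinj hne hlev hpos hties
  have h2j : (0 : ℝ) < (2 : ℝ) ^ j := by positivity
  set t : ℝ := (2 : ℝ) ^ j with ht
  have hCd : 0 < Cd := zero_lt_one.trans_le h.cd
  have hA := h.a0
  have hb0 : 0 < b := zero_lt_one.trans h.b1
  have hdist : ∀ q, (∃ i, q = P i ∨ q = B i) → dist x (V.ps q) < 2 * t := by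
    intro q hq
    refine (V.dist_of_hat q (hpos q hq)).trans_le ?_
    have : (2 : ℝ) ^ V.lv q ≤ (2 : ℝ) ^ j :=
      zpow_le_zpow_right₀ (by norm_num) (by rcases hlev q hq with h | h <;> omega)
    rw [ht]
    linarith
  let κ : Cf V k :=
    { j := j, okj := hj, P := P, B := B, inj := hinj, ne := hne, lev := hlev
      near := by
        intro q q' hq hq'
        have h1 := hdist q hq
        have h2 := hdist q' hq'
        have := dist_triangle_left (V.ps q) (V.ps q') x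
        linarith }
  have hΨ := hcκ κ
  set p₀ := V.ps (P ⟨0, hk⟩) with hp₀
  have hxp : dist x p₀ < 2 * t := hdist _ ⟨⟨0, hk⟩, Or.inl rfl⟩
  set κ' : ℝ := (k : ℝ) * (1 - η) with hκ'
  have hκ0 : 0 ≤ κ' := mul_nonneg (Nat.cast_nonneg _) (by linarith)
  set mp := μ.real (ball p₀ (386 * t)) with hmp
  have hmp0 : 0 < mp := h.real_pos _ (by positivity)
  set M := M0 n k b A Cd η * ((386 * t) ^ (-b) * mp) with hM
  have hM00 : 0 ≤ M0 n k b A Cd η := by unfold M0; positivity
  have hM0 : 0 ≤ M := by rw [hM]; positivity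
  -- energy bounds of balls around `x`
  have hE : ∀ s ∈ Ioo (0 : ℝ) (192 * t), ∫ y in ball x (2 * s), ρ y ^ b ∂μ ≤
      ((4 * t⁻¹) ^ κ' * M) * s ^ κ' := by
    intro s hs
    have hs0 : 0 < s := hs.1
    have hfac : ∀ y ∈ ball x (2 * s), ENNReal.ofReal (ρ y) ^ b ≤
        ENNReal.ofReal ((2 * s * (2 * t⁻¹)) ^ κ') *
        (ENNReal.ofReal (ρ y) ^ b *
          pk η P B (fun i => V.hat (P i) y - V.hat (B i) y) Finset.univ c) := by
      intro y hy
      rw [mem_ball] at hy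
      have h1 : 1 ≤ ∏ i : Fin k, (ENNReal.ofReal ((2 * s * (2 * t⁻¹)) ^ (1 - η)) *
          sk η ((V.hat (P i) y - V.hat (B i) y) - (c (P i) - c (B i)))) := by
        apply Finset.one_le_prod'
        intro i _
        unfold sk
        apply one_le_factor (by linarith) (by positivity)
        have hjP : j - 1 ≤ V.lv (P i) := by
          rcases hlev _ ⟨i, Or.inl rfl⟩ with h | h <;> omega
        have hjB : j - 1 ≤ V.lv (B i) := by
          rcases hlev _ ⟨i, Or.inr rfl⟩ with h | h <;> omega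
        have h1 := V.hat_lip (P i) hjP x y
        have h2 := V.hat_lip (B i) hjB x y
        have h3 : (V.hat (P i) y - V.hat (B i) y) - (c (P i) - c (B i)) =
            (V.hat (P i) y - V.hat (P i) x) - (V.hat (B i) y - V.hat (B i) x) := by
          linarith [hties i]
        rw [h3]
        refine (abs_sub _ _).trans ?_
        rw [← ht] at h1 h2
        have h4 : t⁻¹ * dist x y ≤ t⁻¹ * (2 * s) := by
          gcongr
          rw [dist_comm]
          exact hy.le
        linarith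
      rw [Finset.prod_mul_distrib, Finset.prod_const, Finset.card_univ, Fintype.card_fin,
        ← ENNReal.ofReal_pow (by positivity), ← Real.rpow_natCast, ← Real.rpow_mul (by positivity),
        mul_comm (1 - η) (k : ℝ), ← hκ'] at h1
      calc ENNReal.ofReal (ρ y) ^ b = ENNReal.ofReal (ρ y) ^ b * 1 := (mul_one _).symm
        _ ≤ ENNReal.ofReal (ρ y) ^ b * (ENNReal.ofReal ((2 * s * (2 * t⁻¹)) ^ κ') *
              ∏ i : Fin k, sk η ((V.hat (P i) y - V.hat (B i) y) - (c (P i) - c (B i)))) := by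
            gcongr
        _ = _ := by unfold pk; ring
    have hball : ball x (2 * s) ⊆ ball p₀ (386 * t) :=
      ball_subset_ball' (by linarith [hs.2])
    have hE' : ∫⁻ y in ball x (2 * s), ENNReal.ofReal (ρ y) ^ b ∂μ ≤
        ENNReal.ofReal ((2 * s * (2 * t⁻¹)) ^ κ' * M) := by
      have hWm : Measurable fun y => ENNReal.ofReal (ρ y) := h.rc.measurable.ennreal_ofReal
      have hmeas : Measurable fun y => ENNReal.ofReal (ρ y) ^ b *
          pk η P B (fun i => V.hat (P i) y - V.hat (B i) y) Finset.univ c := by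
        have := measurable_Psi_aux (okl := okl) hWm b η V P B
        exact this.comp (measurable_const.prodMk measurable_id)
      calc ∫⁻ y in ball x (2 * s), ENNReal.ofReal (ρ y) ^ b ∂μ
          ≤ ∫⁻ y in ball x (2 * s), ENNReal.ofReal ((2 * s * (2 * t⁻¹)) ^ κ') *
              (ENNReal.ofReal (ρ y) ^ b *
                pk η P B (fun i => V.hat (P i) y - V.hat (B i) y) Finset.univ c) ∂μ :=
            setLIntegral_mono' measurableSet_ball hfac
        _ = ENNReal.ofReal ((2 * s * (2 * t⁻¹)) ^ κ') * ∫⁻ y in ball x (2 * s),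
              (ENNReal.ofReal (ρ y) ^ b *
                pk η P B (fun i => V.hat (P i) y - V.hat (B i) y) Finset.univ c) ∂μ := by
            rw [lintegral_const_mul _ hmeas]
        _ ≤ ENNReal.ofReal ((2 * s * (2 * t⁻¹)) ^ κ') * ENNReal.ofReal M := by
            gcongr
            exact (lintegral_mono_set hball).trans hΨ
        _ = _ := by rw [← ENNReal.ofReal_mul (by positivity)]
    have e2 : ∫⁻ y in ball x (2 * s), ENNReal.ofReal (ρ y) ^ b ∂μ =
        ENNReal.ofReal (∫ y in ball x (2 * s), ρ y ^ b ∂μ) := by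
      rw [ofReal_integral_eq_lintegral_ofReal (h.int_ball h.cont_pow _ _)
        (Eventually.of_forall fun y => (Real.rpow_pos_of_pos (h.rp y) b).le)]
      apply lintegral_congr
      intro y
      rw [ENNReal.ofReal_rpow_of_pos (h.rp y)]
    rw [e2, ENNReal.ofReal_le_ofReal_iff (by positivity)] at hE'
    refine hE'.trans (le_of_eq ?_)
    rw [show 2 * s * (2 * t⁻¹) = (4 * t⁻¹) * s by ring, Real.mul_rpow (by positivity) hs0.le]
    ring
  have hok1 := hokl _ hj
  rw [← ht] at hok1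
  have hfin := h.pot_le (κ := κ') hηb x (R := 192 * t) (Q := (4 * t⁻¹) ^ κ' * M) (by positivity)
    (h.okm _ _ hok1 (by linarith)) (by positivity) hE
  refine hfin.trans ?_
  unfold LamC
  have h1 : 0 < 1 - ((n : ℝ) - k * (1 - η)) / b := by
    rw [sub_pos, div_lt_one (by linarith)]; exact hηb
  rw [← hκ'] at h1 ⊢
  have hmx0 : 0 < μ.real (ball x (2 * (192 * t))) := h.real_pos _ (by positivity)
  have hmm : mp ≤ Cd * 3 ^ n * μ.real (ball x (2 * (192 * t))) := by
    have k1 := h.dbl x (2 * (192 * t)) (388 * t) (by positivity) (by linarith)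
      (h.okm _ _ hok1 (by linarith))
    have k2 : 388 * t / (2 * (192 * t)) ≤ 3 := by
      rw [div_le_iff₀ (by positivity)]
      linarith
    have k3 : Cd * (388 * t / (2 * (192 * t))) ^ n * μ.real (ball x (2 * (192 * t))) ≤
        Cd * 3 ^ n * μ.real (ball x (2 * (192 * t))) := by gcongr
    exact ((measureReal_mono (ball_subset_ball' (by rw [dist_comm]; linarith))
      (h.ball_lt _ _).ne).trans k1).trans k3
  gcongr ?_ * ?_
  have e3 : (4 * t⁻¹) ^ κ' * M * (192 * t) ^ κ' / μ.real (ball x (2 * (192 * t))) ≤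
      (768 : ℝ) ^ κ' * (M0 n k b A Cd η) * (386 : ℝ) ^ (-b) * (Cd * 3 ^ n) * t ^ (-b) := by
    rw [div_le_iff₀ hmx0]
    have e4 : (4 * t⁻¹) ^ κ' * (192 * t) ^ κ' = (768 : ℝ) ^ κ' := by
      rw [← Real.mul_rpow (by positivity) (by positivity)]
      congr 1
      field_simp
      norm_num
    calc (4 * t⁻¹) ^ κ' * M * (192 * t) ^ κ' = ((4 * t⁻¹) ^ κ' * (192 * t) ^ κ') * M := by ring
      _ = (768 : ℝ) ^ κ' * (M0 n k b A Cd η * ((386 * t) ^ (-b) * mp)) := by rw [e4, hM]
      _ ≤ (768 : ℝ) ^ κ' * (M0 n k b A Cd η * ((386 * t) ^ (-b) *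
            (Cd * 3 ^ n * μ.real (ball x (2 * (192 * t)))))) := by gcongr
      _ = _ := by rw [Real.mul_rpow (by norm_num) h2j.le]; ring
  calc 192 * t * ((4 * t⁻¹) ^ κ' * M * (192 * t) ^ κ' / μ.real (ball x (2 * (192 * t)))) ^ (1 / b)
      ≤ 192 * t * ((768 : ℝ) ^ κ' * (M0 n k b A Cd η) * (386 : ℝ) ^ (-b) * (Cd * 3 ^ n) *
          t ^ (-b)) ^ (1 / b) := by gcongr
    _ = 192 * ((768 : ℝ) ^ κ' * (M0 n k b A Cd η) * (386 : ℝ) ^ (-b) * (Cd * 3 ^ n)) ^ (1 / b) *
          (t * (t ^ (-b)) ^ (1 / b)) := by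
        rw [Real.mul_rpow (by positivity) (by positivity)]
        ring
    _ = 192 * ((768 : ℝ) ^ κ' * (M0 n k b A Cd η) * (386 : ℝ) ^ (-b) * (Cd * 3 ^ n)) ^ (1 / b) := by
        have : t * (t ^ (-b)) ^ (1 / b) = 1 := by
          rw [← Real.rpow_mul h2j.le, show -b * (1 / b) = -1 by field_simp, Real.rpow_neg_one]
          field_simp
        rw [this, mul_one]

end Vale.Agent.P210.Cw
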